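import Vale.Agent.P088.R2.H679.E.Cr2
import Vale.Agent.P088.R2.H168.INF.Spec2
import Vale.Agent.P088.R2.H168.INF.Lvp
import Vale.Agent.P088.R2.H509.EP.Side

/-!
# P088, stage 3, EST', payments at infinity: the leaf iH

`pbI_iH`: the leaf iH pays; `cbI_iH`: its cost is small. The cost of one slot (say `x`):
`l(x) ≥ l₀ + 2.85 R`: row SS; `u₀ ≥ 2 l₀ + 4.55 R`: the crude bounds of `W` and `Φ'` large;
otherwise the slot derivatives of the cut-off vanish.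
-/

open Set Filter
open scoped ContDiff Topology

noncomputable section

namespace Vale.Agent.P088.R2.H679.E

open Vale.Agent.P088.LR Vale.Agent.P088.HY
open Vale.Agent.P088.R2.H31.EP Vale.Agent.P088.R2.H404.INF
open Vale.Agent.P088.R2.H961.GW Vale.Agent.P088.R2.H644 Vale.Agent.P088.R2.H960.W
open Vale.Agent.P088.R2.H551.E Vale.Agent.P088.R2.H871.E
open Vale.Agent.P088.R2.H867.EP (Zo Inf Cut path)
open Vale.Agent.P088.R2.H380.INF (HH_le okx1 oky1 sb_pt)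
open Vale.Agent.P088.R2.H269.INF (K1 K1_nn)
open Vale.Agent.P088.R2.H168.INF (hN hX hY lmH muH MiH CiH kH Stf RowSS RowSt HH gA ss Pj pj_x pj_y
  Mt mt₁ mt₂)
open Vale.Agent.P088.R2.H455.E (Lc SmE)

variable {n : ℕ} {q : Cst} {d : Pk n} {z : VV n}

/-! ## The payer -/

theorem hX_eq (h : PkOk q d) (hz : In3 q d z) : hX q d z = nx q d z ∧ hY q d z = ny q d z := by
  have e1 := h.ret.id z.1 hz.x.le
  have e2 := h.ret.id z.2 hz.y.le
  unfold hX hY hN nx ny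
  rw [e1, e2]
  exact ⟨rfl, rfl⟩

theorem pbH (n : ℕ) : EvC fun q => ∀ d : Pk n, PkOk q d → ∀ z, In3 q d z →
    PB (1 / 40000) (q.σ / q.R) (nx q d z) (ny q d z) (d.sx.F (d.W q) z) (d.sy.F (d.W q) z)
      (MiH q d) z := by
  refine (evInf.and ((EvC.el3 n).and EvC.pos)).mono ?_
  rintro q ⟨hI, hel, -, -, hM, -⟩ d h z hz
  obtain ⟨e1, e2⟩ := hX_eq h hz
  obtain ⟨l1, l2⟩ := hel d h z
  obtain ⟨m1, m2⟩ := nx_ge (z := z) h hI.R0
  have F1 : 0 ≤ d.sx.F (d.W q) z := l1.toEl2.F_nn _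
  have F2 : 0 ≤ d.sy.F (d.W q) z := l2.toEl2.F_nn _
  have hs : 0 < q.σ / q.R := div_pos hI.σ0 hI.R0
  have key : ∀ {ν F : ℝ}, 0 ≤ ν → 0 ≤ F →
      1 / 40000 * (q.σ / q.R * (ν * F + q.σ / q.R * ν ^ 2)) ≤
        1 / 100 * (q.σ / q.R) * ν * F / 4 + (1 / 100 * (q.σ / q.R) * ν) ^ 2 / 4 ∧
      1 / 40000 * (q.σ / q.R * ν) ≤ 1 / 100 * (q.σ / q.R) * ν / 6 := by
    intro ν F hν hF
    have a1 : 0 ≤ q.σ / q.R * ν := by positivity
    have a2 : 0 ≤ q.σ / q.R * ν * F := by positivity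
    constructor
    · have e : 1 / 100 * (q.σ / q.R) * ν * F / 4 + (1 / 100 * (q.σ / q.R) * ν) ^ 2 / 4 -
          1 / 40000 * (q.σ / q.R * (ν * F + q.σ / q.R * ν ^ 2)) =
          99 / 40000 * (q.σ / q.R * ν * F) := by ring
      linarith
    · linarith
  have k1 := key (by linarith : 0 ≤ nx q d z) F1
  have k2 := key (by linarith : 0 ≤ ny q d z) F2
  exact
    { κ := zero_le_one
      ζ₁ := by
        show _ ≤ lmH q d z / 6
        unfold lmH
        rw [e1]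
        exact k1.2
      ζ₂ := by
        show _ ≤ muH q d z / 6
        unfold muH
        rw [e2]
        exact k2.2
      ζy := le_rfl
      w₁ := by
        show _ ≤ lmH q d z * d.sx.F (d.W q) z / 4 + lmH q d z ^ 2 / 4
        unfold lmH
        rw [e1]
        exact k1.1
      w₂ := by
        show _ ≤ muH q d z * d.sy.F (d.W q) z / 4 + muH q d z ^ 2 / 4
        unfold muH
        rw [e2]
        exact k2.1
      wb := le_rfl
      wc := le_rfl }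

/-- **The leaf iH pays.** -/
theorem pbI_iH {L : Lc n} (hM : ∀ (q : Cst) (d : Pk n), L.FM .iH q d = MiH q d) : PbI L .iH := by
  refine ⟨fun _ => 1 / 40000, ⟨fun _ => rfl, fun _ => by norm_num⟩, ?_⟩
  refine (pbH n).mono fun q hq d h z hz _ => ?_
  show PB _ _ _ _ _ _ (L.FM .iH q d) z
  rw [hM]
  exact hq d h z hz

/-! ## The cost of one slot -/

section slot

variable {E ι : Type*} [NormedAddCommGroup E] [NormedSpace ℝ E] [Fintype ι] {σ : Sl E ι}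
  {W χ lam : E → ℝ} {z : E}

theorem kH_zero (h : ∀ i, σ.D i χ z = 0) : kH σ W χ lam z = 0 := by
  have e1 : σ.Γ χ χ z = 0 := by unfold Sl.Γ; simp [h]
  have e2 : σ.Γ χ (σ.Λ W) z = 0 := by unfold Sl.Γ; simp [h]
  have e3 : HH σ W z (fun i => σ.D i χ z) = 0 := by unfold HH; simp [h]
  unfold kH
  rw [e1, e2, e3]
  simp

/-- Very stiff slots. -/
theorem kH_stf {δ P : ℝ} (hG : σ.Γ χ (σ.Λ W) z = σ.Γ (σ.Λ W) χ z) (hl : 0 ≤ lam z)
    (pen : ∀ v : ι → ℝ, (∀ i, |v i| ≤ 1) →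
      4 * lam z * ss σ v z + 64 * |HH σ W z v| + 8 * |gA σ (σ.Λ W) z v| ≤ P)
    (hχ : |χ z| ≤ 1) (h0 : 0 < δ) (h1 : δ ≤ 1) (hD : ∀ i, |σ.D i χ z| ≤ δ)
    (hss : ∀ A : ι → ℝ, 0 ≤ ss σ A z) : kH σ W χ lam z ≤ δ * P := by
  set v : ι → ℝ := fun i => σ.D i χ z / δ with hv
  have e0 : ∀ i, σ.D i χ z = δ * v i := fun i => by
    rw [hv]
    field_simp
  have hv1 : ∀ i, |v i| ≤ 1 := fun i => by
    show |σ.D i χ z / δ| ≤ 1
    rw [abs_div, abs_of_pos h0, div_le_one h0]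
    exact hD i
  have hp := pen v hv1
  have e1 : σ.Γ χ χ z = δ ^ 2 * ss σ v z := by
    unfold Sl.Γ ss
    rw [Finset.mul_sum]
    refine Finset.sum_congr rfl fun i _ => ?_
    rw [Finset.mul_sum]
    refine Finset.sum_congr rfl fun j _ => ?_
    rw [e0 i, e0 j]
    ring
  have e2 : HH σ W z (fun i => σ.D i χ z) = δ ^ 2 * HH σ W z v := by
    unfold HH
    rw [Finset.mul_sum]
    refine Finset.sum_congr rfl fun i _ => ?_
    rw [Finset.mul_sum]
    refine Finset.sum_congr rfl fun j _ => ?_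
    beta_reduce
    rw [e0 i, e0 j]
    ring
  have e3 : σ.Γ χ (σ.Λ W) z = δ * gA σ (σ.Λ W) z v := by
    rw [hG]
    unfold Sl.Γ gA
    rw [Finset.mul_sum]
    refine Finset.sum_congr rfl fun i _ => ?_
    rw [Finset.mul_sum]
    refine Finset.sum_congr rfl fun j _ => ?_
    rw [e0 j]
    ring
  have p1 : 0 ≤ lam z * ss σ v z := mul_nonneg hl (hss v)
  have p2 := abs_nonneg (HH σ W z v)
  have p3 := abs_nonneg (gA σ (σ.Λ W) z v)
  have d2 : δ ^ 2 ≤ δ := by nlinarith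
  unfold kH
  rw [e1, e2, e3, abs_mul, abs_mul, abs_mul, abs_of_pos h0, abs_of_nonneg (sq_nonneg δ)]
  have q1 := mul_le_mul_of_nonneg_right d2 p1
  have q2 := mul_le_mul_of_nonneg_right d2 p2
  have q3 : |χ z| * (δ * |gA σ (σ.Λ W) z v|) ≤ 1 * (δ * |gA σ (σ.Λ W) z v|) :=
    mul_le_mul_of_nonneg_right hχ (by positivity)
  have q4 := mul_le_mul_of_nonneg_left hp h0.le
  linarith

/-- The crude bound. -/
theorem kH_crude {δ S₁ w₁ w₂ w₃ : ℝ} (l : El3 σ z) (hl : 0 ≤ lam z) (hχ : |χ z| ≤ 1)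
    (hδ : 0 ≤ δ) (hD : ∑ i, σ.D i χ z ^ 2 ≤ δ ^ 2) (bS : ∀ i j, |σ.s i j z| ≤ 2)
    (bD : ∀ k i j, |σ.D k (σ.s i j) z| ≤ S₁) (bη : ∀ i, σ.η i z = 0)
    (b1 : ∀ i, |σ.D i W z| ≤ w₁) (b2 : ∀ i j, |σ.D i (σ.D j W) z| ≤ w₂)
    (b3 : ∀ i, |σ.D i (σ.Λ W) z| ≤ w₃) (S0 : 0 ≤ S₁) (w10 : 0 ≤ w₁) (w20 : 0 ≤ w₂)
    (w30 : 0 ≤ w₃) :
    kH σ W χ lam z ≤ 8 * (lam z * δ ^ 2) +
      64 * ((Fintype.card ι : ℝ) ^ 3 * (2 ^ 2 * w₂ + 3 / 2 * (2 * S₁ * w₁)) * δ ^ 2) +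
      16 * (δ * (√(Fintype.card ι) * w₃)) := by
  have a1 : σ.Γ χ χ z ≤ 2 * δ ^ 2 := by
    have : ss σ (fun i => σ.D i χ z) z ≤ _ := l.up fun i => σ.D i χ z
    have e1 : ss σ (fun i => σ.D i χ z) z = σ.Γ χ χ z := rfl
    rw [e1] at this
    linarith
  have a2 := mul_le_mul_of_nonneg_left a1 hl
  have a3 := HH_le (f := W) bS bD bη b1 b2 (by norm_num) S0 w10 w20 fun i => σ.D i χ z
  have a4 : |HH σ W z fun i => σ.D i χ z| ≤ (Fintype.card ι : ℝ) ^ 3 *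
      (2 ^ 2 * w₂ + 3 / 2 * (2 * S₁ * w₁)) * δ ^ 2 :=
    a3.trans (mul_le_mul_of_nonneg_left hD (by positivity))
  have a5 := l.G_le (f := χ) (g := σ.Λ W) hδ (mul_nonneg (Real.sqrt_nonneg _) w30) hD
    (sum_bd b3)
  have a6 : |χ z * σ.Γ χ (σ.Λ W) z| ≤ 2 * (δ * (√(Fintype.card ι) * w₃)) := by
    rw [abs_mul]
    calc _ ≤ 1 * (2 * (δ * (√(Fintype.card ι) * w₃))) :=
          mul_le_mul hχ a5 (abs_nonneg _) zero_le_one
      _ = _ := one_mul _
  unfold kH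
  linarith

end slot

/-! ## The cut-off in the third region -/

theorem inf_far (hI : InfC q) (h : 6 / 5 * q.R ≤ √(HY.sq (z.1 - z.2))) : 1 ≤ d.cv q .inf z := by
  have hR := hI.R0
  have hk := hI.κ0
  have hk1 := hI.κ1
  show 1 ≤ Real.smoothTransition (4 * H31.EP.qq z / (q.κ₁ * q.R) ^ 2 - 1) +
    Real.smoothTransition (10 * (-(q.σ / q.R * d.u0 z) - 3 / 2)) +
    Real.smoothTransition (20 * (d.u0 z - 2 * d.l₀ q) / q.R - 92)
  have a : 1 ≤ 4 * H31.EP.qq z / (q.κ₁ * q.R) ^ 2 - 1 := by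
    have h1 : (6 / 5 * q.R) ^ 2 ≤ H31.EP.qq z := (Real.le_sqrt' (by positivity)).1 h
    have h2 : (q.κ₁ * q.R) ^ 2 ≤ q.R ^ 2 :=
      pow_le_pow_left₀ (by positivity) (by nlinarith) 2
    rw [le_sub_iff_add_le, le_div_iff₀ (by positivity)]
    nlinarith
  rw [Real.smoothTransition.one_of_one_le a]
  have b1 := Real.smoothTransition.nonneg (10 * (-(q.σ / q.R * d.u0 z) - 3 / 2))
  have b2 := Real.smoothTransition.nonneg (20 * (d.u0 z - 2 * d.l₀ q) / q.R - 92)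
  linarith

theorem cut_iH {c : Cut} (hc : c ∈ path .iH) : c = .inf ∨ c = .hi := by
  cases c <;> revert hc <;> decide

/-- Where `l(x) < l₀ + 2.85 R` and `u₀ < 2 l₀ + 4.55 R` the cut-off does not depend on `x`. -/
theorem flat_x (hI : InfC q) (hL : LvG q.σ q.R (d.l₀ q) (H475.gg n q.σ) d.l) (sm : LitSm q d)
    (h : PkOk q d) (hz : In3 q d z) (hc : d.ch q .iH z ≠ 0)
    (h1 : d.l z.1 < d.l₀ q + 285 / 100 * q.R) (h2 : d.u0 z < 2 * d.l₀ q + 91 / 20 * q.R)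
    (i : Fin n) : d.sx.D i (d.ch q .iH) z = 0 := by
  have hR := hI.R0
  have e0 : d.u0 z = d.l z.1 + d.l z.2 := rfl
  have h3 : d.l₀ q + 29 / 10 * q.R < d.l z.2 := by
    rcases sd_iH hc hR with c | c | c
    · exact absurd c (not_lt.2 h2.le)
    · linarith
    · exact c
  obtain ⟨p1, -, -⟩ := lip3 hL hz.x.le hz.y.le
  have h4 : 6 / 5 * q.R ≤ √(HY.sq (z.1 - z.2)) := by
    have := (abs_le.1 p1).1
    linarith
  have h5 : 1 ≤ d.cv q .inf z := inf_far hI h4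
  have key : |fderiv ℝ (d.ch q .iH) z (Pi.single i 1, 0)| ≤
      7 * BF * (0 * en2 ((Pi.single i 1, 0) : VV n)) := by
    refine dch_abs sm le_rfl _ ?_
    intro c hc' c0 c1
    rcases cut_iH hc' with rfl | rfl
    · exact absurd c1 (not_lt.2 h5)
    · have cl : Continuous d.l := h.lev.sm.continuous
      have ev : d.cv q .hi =ᶠ[𝓝 z]
          fun w => Real.smoothTransition (20 * ((d.l w.2 - d.l₀ q) / q.R) - 58) := by
        filter_upwards [(isOpen_lt (cl.comp continuous_fst) continuous_const).mem_nhds h1,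
          (isOpen_lt ((cl.comp continuous_fst).add (cl.comp continuous_snd))
            continuous_const).mem_nhds h2] with w a1 a2
        have a1' : d.l w.1 < d.l₀ q + 285 / 100 * q.R := a1
        have a2' : d.u0 w < 2 * d.l₀ q + 91 / 20 * q.R := a2
        show Real.smoothTransition (20 * (d.u0 w - 2 * d.l₀ q) / q.R - 91) +
          Real.smoothTransition (20 * ((d.l w.1 - d.l₀ q) / q.R) - 58) +
          Real.smoothTransition (20 * ((d.l w.2 - d.l₀ q) / q.R) - 58) = _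
        have b1 : 20 * (d.u0 w - 2 * d.l₀ q) / q.R - 91 ≤ 0 := by
          rw [sub_nonpos, div_le_iff₀ hR]
          linarith
        have b2 : 20 * ((d.l w.1 - d.l₀ q) / q.R) - 58 ≤ 0 := by
          have : (d.l w.1 - d.l₀ q) / q.R ≤ 285 / 100 := by
            rw [div_le_iff₀ hR]
            linarith
          linarith
        rw [Real.smoothTransition.zero_of_nonpos b1, Real.smoothTransition.zero_of_nonpos b2,
          zero_add, zero_add]
      rw [ev.fderiv_eq]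
      have sd : ContDiff ℝ ∞ fun y : V n =>
          Real.smoothTransition (20 * ((d.l y - d.l₀ q) / q.R) - 58) :=
        Real.smoothTransition.contDiff.comp ((contDiff_const.mul
          ((h.lev.sm.sub contDiff_const).div_const _)).sub contDiff_const)
      have e := H961.GW.fd_snd (z := z) (sd.differentiable (by simp) z.2) (Pi.single i 1) 0
      rw [e, map_zero, abs_zero, zero_mul]
  rw [zero_mul, mul_zero] at key
  have e := abs_nonpos_iff.1 key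
  show 1 * fderiv ℝ (d.ch q .iH) z (Pi.single i 1, 0) = 0
  rw [e, mul_zero]

theorem flat_y (hI : InfC q) (hL : LvG q.σ q.R (d.l₀ q) (H475.gg n q.σ) d.l) (sm : LitSm q d)
    (h : PkOk q d) (hz : In3 q d z) (hc : d.ch q .iH z ≠ 0)
    (h1 : d.l z.2 < d.l₀ q + 285 / 100 * q.R) (h2 : d.u0 z < 2 * d.l₀ q + 91 / 20 * q.R)
    (i : Fin n) : d.sy.D i (d.ch q .iH) z = 0 := by
  have hR := hI.R0
  have e0 : d.u0 z = d.l z.1 + d.l z.2 := rfl
  have h3 : d.l₀ q + 29 / 10 * q.R < d.l z.1 := by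
    rcases sd_iH hc hR with c | c | c
    · exact absurd c (not_lt.2 h2.le)
    · exact c
    · linarith
  obtain ⟨p1, -, -⟩ := lip3 hL hz.x.le hz.y.le
  have h4 : 6 / 5 * q.R ≤ √(HY.sq (z.1 - z.2)) := by
    have := (abs_le.1 p1).2
    linarith
  have h5 : 1 ≤ d.cv q .inf z := inf_far hI h4
  have key : |fderiv ℝ (d.ch q .iH) z (0, Pi.single i 1)| ≤
      7 * BF * (0 * en2 ((0, Pi.single i 1) : VV n)) := by
    refine dch_abs sm le_rfl _ ?_
    intro c hc' c0 c1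
    rcases cut_iH hc' with rfl | rfl
    · exact absurd c1 (not_lt.2 h5)
    · have cl : Continuous d.l := h.lev.sm.continuous
      have ev : d.cv q .hi =ᶠ[𝓝 z]
          fun w => Real.smoothTransition (20 * ((d.l w.1 - d.l₀ q) / q.R) - 58) := by
        filter_upwards [(isOpen_lt (cl.comp continuous_snd) continuous_const).mem_nhds h1,
          (isOpen_lt ((cl.comp continuous_fst).add (cl.comp continuous_snd))
            continuous_const).mem_nhds h2] with w a1 a2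
        have a1' : d.l w.2 < d.l₀ q + 285 / 100 * q.R := a1
        have a2' : d.u0 w < 2 * d.l₀ q + 91 / 20 * q.R := a2
        show Real.smoothTransition (20 * (d.u0 w - 2 * d.l₀ q) / q.R - 91) +
          Real.smoothTransition (20 * ((d.l w.1 - d.l₀ q) / q.R) - 58) +
          Real.smoothTransition (20 * ((d.l w.2 - d.l₀ q) / q.R) - 58) = _
        have b1 : 20 * (d.u0 w - 2 * d.l₀ q) / q.R - 91 ≤ 0 := by
          rw [sub_nonpos, div_le_iff₀ hR]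
          linarith
        have b2 : 20 * ((d.l w.2 - d.l₀ q) / q.R) - 58 ≤ 0 := by
          have : (d.l w.2 - d.l₀ q) / q.R ≤ 285 / 100 := by
            rw [div_le_iff₀ hR]
            linarith
          linarith
        rw [Real.smoothTransition.zero_of_nonpos b1, Real.smoothTransition.zero_of_nonpos b2,
          zero_add, add_zero]
      rw [ev.fderiv_eq]
      have sd : ContDiff ℝ ∞ fun y : V n =>
          Real.smoothTransition (20 * ((d.l y - d.l₀ q) / q.R) - 58) :=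
        Real.smoothTransition.contDiff.comp ((contDiff_const.mul
          ((h.lev.sm.sub contDiff_const).div_const _)).sub contDiff_const)
      have e := H961.GW.fd_fst (z := z) (sd.differentiable (by simp) z.1) 0 (Pi.single i 1)
      rw [e, map_zero, abs_zero, zero_mul]
  rw [zero_mul, mul_zero] at key
  have e := abs_nonpos_iff.1 key
  show 1 * fderiv ℝ (d.ch q .iH) z (0, Pi.single i 1) = 0
  rw [e, mul_zero]

/-! ## The cost of one slot of the package -/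

/-- The factor of the crude bound. -/
def TH (n : ℕ) (q : Cst) : ℝ := 8 * dX n q ^ 2 + 64 * ((n : ℝ) ^ 3 * (7 * CU n q) * dX n q ^ 2) +
  16 * (dX n q * (√n * CU n q))

theorem slot_crude {σ : Sl (VV n) (Fin n)} {π : VV n → V n} {s : MF n} {χ lam W : VV n → ℝ}
    {ν ε : ℝ} (p : Pj σ π s) (m : Mt q.ε q.R s) (he : q.ε ≤ 1) (l : El3 σ z) (hI : InfC q)
    (hC : 0 ≤ CU n q) (hl : lam z = 1 / 100 * (q.σ / q.R) * ν) (hν : 0 ≤ ν) (hχ : |χ z| ≤ 1)
    (hD : ∑ i, σ.D i χ z ^ 2 ≤ (dX n q / q.R) ^ 2)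
    (b1 : ∀ i, |σ.D i W z| ≤ CU n q * ν) (b2 : ∀ i j, |σ.D i (σ.D j W) z| ≤ CU n q * ν)
    (b3 : ∀ i, |σ.D i (σ.Λ W) z| ≤ CU n q * ν) (hε : 0 < ε)
    (big : TH n q / (ε * q.σ ^ 2) * q.R ^ 2 ≤ ν) :
    kH σ W χ lam z ≤ ε * (q.σ / q.R * (ν * σ.F W z + q.σ / q.R * ν ^ 2)) := by
  have hR := hI.R0
  have hR1 := hI.R1
  have h0 := hI.σ0
  have hx := dX_nn (n := n) hI
  have s0 : 0 < q.σ / q.R := div_pos h0 hR
  have s1 : q.σ / q.R ≤ 1 := by
    rw [div_le_iff₀ hR]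
    linarith [hI.σ1]
  have hl0 : 0 ≤ lam z := by rw [hl]; positivity
  have hl1 : lam z ≤ ν := by
    rw [hl]
    nlinarith [mul_nonneg s0.le hν, mul_le_mul_of_nonneg_right s1 hν]
  have δ0 : 0 ≤ dX n q / q.R := by positivity
  have δ1 : dX n q / q.R ≤ dX n q := div_le_self hx hR1
  have δ2 : (dX n q / q.R) ^ 2 ≤ dX n q ^ 2 := pow_le_pow_left₀ δ0 δ1 2
  have bS : ∀ i j, |σ.s i j z| ≤ 2 := fun i j => by
    rw [p.s i j z]
    have h1 := m.c0 i j (π z)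
    have h2 : |(1 : Matrix (Fin n) (Fin n) ℝ) i j| ≤ 1 := by
      rw [Matrix.one_apply]
      split_ifs <;> simp
    have h3 := abs_add_le (s (π z) i j - (1 : Matrix (Fin n) (Fin n) ℝ) i j)
      ((1 : Matrix (Fin n) (Fin n) ℝ) i j)
    rw [sub_add_cancel] at h3
    linarith
  have bD : ∀ k i j, |σ.D k (σ.s i j) z| ≤ 1 := fun k i j => by
    rw [p.Ds m.sm]
    refine (m.c1 i j k _).trans ?_
    rw [div_le_iff₀ hR]
    linarith
  have w0 : 0 ≤ CU n q * ν := mul_nonneg hC hν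
  have k := kH_crude (χ := χ) (lam := lam) (W := W) l hl0 hχ δ0 hD bS bD (fun i => p.η i z)
    b1 b2 b3 zero_le_one w0 w0 w0
  rw [Fintype.card_fin] at k
  have k1 : lam z * (dX n q / q.R) ^ 2 ≤ ν * dX n q ^ 2 :=
    mul_le_mul hl1 δ2 (sq_nonneg _) hν
  have k2 : (n : ℝ) ^ 3 * (2 ^ 2 * (CU n q * ν) + 3 / 2 * (2 * 1 * (CU n q * ν))) *
      (dX n q / q.R) ^ 2 ≤ (n : ℝ) ^ 3 * (7 * CU n q) * dX n q ^ 2 * ν := by
    have e : (n : ℝ) ^ 3 * (2 ^ 2 * (CU n q * ν) + 3 / 2 * (2 * 1 * (CU n q * ν))) =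
        (n : ℝ) ^ 3 * (7 * CU n q) * ν := by ring
    rw [e]
    calc _ ≤ (n : ℝ) ^ 3 * (7 * CU n q) * ν * dX n q ^ 2 :=
          mul_le_mul_of_nonneg_left δ2 (by positivity)
      _ = _ := by ring
  have k3 : dX n q / q.R * (√n * (CU n q * ν)) ≤ dX n q * (√n * CU n q) * ν := by
    calc _ ≤ dX n q * (√n * (CU n q * ν)) := mul_le_mul_of_nonneg_right δ1 (by positivity)
      _ = _ := by ring
  have k4 : kH σ W χ lam z ≤ TH n q * ν := by
    unfold TH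
    linarith
  have k5 : TH n q ≤ ε * (q.σ / q.R) ^ 2 * ν := by
    rw [div_mul_eq_mul_div, div_le_iff₀ (by positivity)] at big
    have e : ε * (q.σ / q.R) ^ 2 * ν = ν * (ε * q.σ ^ 2) / q.R ^ 2 := by
      rw [div_pow]
      ring
    rw [e, le_div_iff₀ (by positivity)]
    exact big
  have k6 := mul_le_mul_of_nonneg_right k5 hν
  have F0 : 0 ≤ σ.F W z := l.toEl2.F_nn W
  have k7 : 0 ≤ ε * (q.σ / q.R * (ν * σ.F W z)) := by positivity
  have e : ε * (q.σ / q.R * (ν * σ.F W z + q.σ / q.R * ν ^ 2)) =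
      ε * (q.σ / q.R * (ν * σ.F W z)) + ε * (q.σ / q.R) ^ 2 * ν * ν := by ring
  rw [e]
  linarith

theorem slot_stf {σ : Sl (VV n) (Fin n)} {χ lam W : VV n → ℝ} {ν ε : ℝ} (l : El3 σ z)
    (hI : InfC q) (hG : σ.Γ χ (σ.Λ W) z = σ.Γ (σ.Λ W) χ z)
    (hl : lam z = 1 / 100 * (q.σ / q.R) * ν) (hν : 0 ≤ ν) (hχ : |χ z| ≤ 1)
    (hD : ∑ i, σ.D i χ z ^ 2 ≤ (dX n q / q.R) ^ 2)
    (pen : ∀ v : Fin n → ℝ, (∀ i, |v i| ≤ 1) →
      4 * lam z * ss σ v z + 64 * |HH σ W z v| + 8 * |gA σ (σ.Λ W) z v| ≤ lam z * σ.F W z / 8)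
    (hε : 0 < ε) (R1 : dX n q + 1 ≤ q.R) (R2 : (dX n q + 1) / ε ≤ q.R) :
    kH σ W χ lam z ≤ ε * (q.σ / q.R * (ν * σ.F W z + q.σ / q.R * ν ^ 2)) := by
  have hR := hI.R0
  have h0 := hI.σ0
  have hx := dX_nn (n := n) hI
  have s0 : 0 < q.σ / q.R := div_pos h0 hR
  have hl0 : 0 ≤ lam z := by rw [hl]; positivity
  have δ0 : 0 < (dX n q + 1) / q.R := by positivity
  have δ1 : (dX n q + 1) / q.R ≤ 1 := by
    rw [div_le_iff₀ hR]
    linarith
  have δ2 : (dX n q + 1) / q.R ≤ ε := by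
    rw [div_le_iff₀ hε] at R2
    rw [div_le_iff₀ hR]
    linarith
  have F0 : 0 ≤ σ.F W z := l.toEl2.F_nn W
  have hDi : ∀ i, |σ.D i χ z| ≤ (dX n q + 1) / q.R := fun i => by
    have h1 : σ.D i χ z ^ 2 ≤ ∑ i, σ.D i χ z ^ 2 :=
      Finset.single_le_sum (f := fun i => σ.D i χ z ^ 2) (fun i _ => sq_nonneg _)
        (Finset.mem_univ i)
    have h2 : |σ.D i χ z| ≤ dX n q / q.R := abs_le_of_sq_le_sq (h1.trans hD) (by positivity)
    refine h2.trans ?_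
    exact div_le_div_of_nonneg_right (by linarith) hR.le
  have hss : ∀ A : Fin n → ℝ, 0 ≤ ss σ A z := fun A => by
    have h1 : ∑ i, A i ^ 2 ≤ 2 * ss σ A z := l.toEl2.lo A
    have h2 : 0 ≤ ∑ i, A i ^ 2 := Finset.sum_nonneg fun i _ => sq_nonneg _
    linarith
  have k := kH_stf hG hl0 pen hχ δ0 δ1 hDi hss
  have k1 : lam z * σ.F W z / 8 ≤ q.σ / q.R * (ν * σ.F W z) := by
    rw [hl]
    have : 0 ≤ q.σ / q.R * (ν * σ.F W z) := by positivity
    linarith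
  have k2 : 0 ≤ lam z * σ.F W z / 8 := by positivity
  have k3 : (dX n q + 1) / q.R * (lam z * σ.F W z / 8) ≤ ε * (q.σ / q.R * (ν * σ.F W z)) :=
    mul_le_mul δ2 k1 k2 hε.le
  have k4 : 0 ≤ ε * (q.σ / q.R * (q.σ / q.R * ν ^ 2)) := by positivity
  have e : ε * (q.σ / q.R * (ν * σ.F W z + q.σ / q.R * ν ^ 2)) =
      ε * (q.σ / q.R * (ν * σ.F W z)) + ε * (q.σ / q.R * (q.σ / q.R * ν ^ 2)) := by ring
  rw [e]
  linarith

/-! ## The cost -/

theorem CU_nn (n : ℕ) {q : Cst} (hL : 0 ≤ q.L₄) : 0 ≤ CU n q := by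
  have c0 := (sb_pt n).choose_spec.1
  have k0 := K1_nn q
  have c1 := CT_one (q := q) hL
  unfold CU
  positivity

theorem cbH (hn : 1 ≤ n) (hSS : RowSS n) (hSt : RowSt n) {ε : Cst → ℝ} (hε : SmE ε) :
    EvC fun q => ∀ d : Pk n, PkOk q d → ∀ z, In3 q d z → d.ch q .iH z ≠ 0 →
      CB (ε q) (q.σ / q.R) (nx q d z) (ny q d z) (d.sx.F (d.W q) z) (d.sy.F (d.W q) z)
        (CiH (d.ch q .iH) q d) z := by
  have hεR : ∀ q : Cst, ε q.b_R = ε q := fun q => by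
    have h1 := hε.1 q.b_R
    have h2 := hε.1 q
    rw [← h1, ← h2]
    rfl
  have hC4 : EvC fun q => 1 ≤ q.C₄ := EvC.at_C₄ (fun _ t => 1 ≤ t) fun _ => eventually_ge_atTop _
  have he : EvC fun q => q.ε ≤ 1 := EvC.at_ε (fun _ t => t ≤ 1) fun _ => sml_le one_pos
  refine (((((EvC.crude hn hSt).and (EvC.big n (fun q => TH n q / (ε q * q.σ ^ 2)) fun q => by
    rw [hεR q]; rfl)).and (hSS.and (H31.EP.EvC.lvG n))).and (((EvC.el3 n).and (EvC.litSm n)).and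
    ((EvC.R_ge (fun q => (dX n q + 1) / ε q) fun q => by rw [hεR q]; rfl).and
    (EvC.R_ge (fun q => dX n q + 1) fun q => rfl)))).and ((evInf.and (he.and hC4)).and
    EvC.pos)).mono ?_
  rintro q ⟨⟨⟨⟨hcr, hbig⟩, hSS, hlv⟩, ⟨hel, hsm⟩, R2, R1⟩, ⟨hI, he, hC4⟩, -, -, hM, -⟩ d h z hz hc
  have hR := hI.R0
  have h0 := hI.σ0
  have s0 : 0 < q.σ / q.R := div_pos h0 hR
  have eq := hε.2 q
  have hL4 : 0 ≤ q.L₄ := by
    unfold Cst.L₄
    positivity
  have hC := CU_nn n hL4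
  obtain ⟨c1, c2⟩ := d_ch hI h (hsm d h) (k := .iH) (Or.inl rfl) z
  obtain ⟨l1, l2⟩ := hel d h z
  obtain ⟨m1, m2⟩ := nx_ge (z := z) h hR
  obtain ⟨g1, g2⟩ := nx_N (z := z) h hR
  obtain ⟨e1, e2⟩ := hX_eq h hz
  have hχ := ch_le1 d q .iH z
  have lx : lmH q d z = 1 / 100 * (q.σ / q.R) * nx q d z := by unfold lmH; rw [e1]
  have ly : muH q d z = 1 / 100 * (q.σ / q.R) * ny q d z := by unfold muH; rw [e2]
  obtain ⟨S1, S2⟩ := hSS d h z
  have sc1 := h.rg.sm₁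
  have sc2 := h.rg.sm₂
  have y1 : ∀ x i j, d.s₁ x i j = d.s₁ x j i := fun x i j => (h.rg.sy₁ x).apply j i
  have y2 : ∀ x i j, d.s₂ x i j = d.s₂ x j i := fun x i j => (h.rg.sy₂ x).apply j i
  have okx := okx1 sc1 sc2 y1 y2
  have oky := oky1 sc1 sc2 y1 y2
  refine CB.ofw rfl rfl rfl rfl rfl rfl ?_ ?_ eq.le s0.le (by linarith) (by linarith)
  · show kH d.sx (d.W q) (d.ch q .iH) (lmH q d) z ≤ _
    by_cases a1 : d.l₀ q + 285 / 100 * q.R ≤ d.l z.1
    · exact slot_stf l1 hI (G_comm okx _ _ _) lx (by linarith) hχ c1 (S1 a1).pen eq R1 R2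
    · by_cases a2 : 2 * d.l₀ q + 91 / 20 * q.R ≤ d.u0 z
      · have C := hcr d h z hz a2
        exact slot_crude (pj_x d.s₁) (mt₁ le_rfl hR h.rg) he l1 hI hC lx (by linarith) hχ c1
          C.x1 C.x2 C.x3 eq ((hbig d h _ a2).1.trans g1)
      · rw [kH_zero (flat_x hI (hlv d h) (hsm d h) h hz hc (not_le.1 a1) (not_le.1 a2))]
        have F0 : 0 ≤ d.sx.F (d.W q) z := l1.toEl2.F_nn _
        have n0 : 0 ≤ nx q d z := by linarith
        positivity
  · show kH d.sy (d.W q) (d.ch q .iH) (muH q d) z ≤ _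
    by_cases a1 : d.l₀ q + 285 / 100 * q.R ≤ d.l z.2
    · exact slot_stf l2 hI (G_comm oky _ _ _) ly (by linarith) hχ c2 (S2 a1).pen eq R1 R2
    · by_cases a2 : 2 * d.l₀ q + 91 / 20 * q.R ≤ d.u0 z
      · have C := hcr d h z hz a2
        exact slot_crude (pj_y d.s₂) (mt₂ le_rfl hR h.rg) he l2 hI hC ly (by linarith) hχ c2
          C.y1 C.y2 C.y3 eq ((hbig d h _ a2).1.trans g2)
      · rw [kH_zero (flat_y hI (hlv d h) (hsm d h) h hz hc (not_le.1 a1) (not_le.1 a2))]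
        have F0 : 0 ≤ d.sy.F (d.W q) z := l2.toEl2.F_nn _
        have n0 : 0 ≤ ny q d z := by linarith
        positivity

/-- **The cost of the leaf iH is small.** -/
theorem cbI_iH (hn : 1 ≤ n) (hSS : RowSS n) (hSt : RowSt n) {L : Lc n}
    (hC : ∀ (q : Cst) (d : Pk n), L.FC .iH q d = CiH (d.ch q .iH) q d) : CbI L .iH := by
  intro ε hε
  refine ⟨fun _ => 1, ⟨fun _ => rfl, fun _ => one_pos⟩, fun e _ _ => ?_⟩
  refine (cbH hn hSS hSt hε).mono fun q hq d h z hz hc => ?_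
  show CB _ _ _ _ _ _ (L.FC .iH q d) z
  rw [hC]
  exact hq d h z hz hc

end Vale.Agent.P088.R2.H679.E
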