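import Vale.Agent.P088.R2.H679.E.PiF
import Vale.Agent.P088.R2.H679.E.PiH
import Vale.Agent.P088.R2.H303.F.Gain
import Vale.Agent.P088.R2.H493.INF.RowS

/-!
# P088, stage 3, EST', payments at infinity: the leaves iF and iH, final form
-/

noncomputable section

namespace Vale.Agent.P088.R2.H679.E

open Vale.Agent.P088.R2.H31.EP Vale.Agent.P088.R2.H871.E
open Vale.Agent.P088.R2.H455.E (Lc)

variable {n : ℕ} {L : Lc n}

/-- **The leaf iF pays.** -/
theorem pbI_iF' (hn : 1 ≤ n) (hM : ∀ (q : Cst) (d : Pk n), L.FM .iF q d = H303.F.MzF q d) :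
    PbI L .iF := pbI_iF hn (H303.F.rowG hn) hM

/-- **The cost of the leaf iF is small.** -/
theorem cbI_iF' (hn : 1 ≤ n) (hC : ∀ (q : Cst) (d : Pk n), L.FC .iF q d = H303.F.cozF q d) :
    CbI L .iF := cbI_iF hn (H303.F.rowG hn) hC

/-- **The cost of the leaf iH is small.** -/
theorem cbI_iH' (hn : 1 ≤ n) (hSS : H168.INF.RowSS n)
    (hC : ∀ (q : Cst) (d : Pk n), L.FC .iH q d = H168.INF.CiH (d.ch q .iH) q d) :
    CbI L .iH := cbI_iH hn hSS (H493.INF.rowSt n) hC

end Vale.Agent.P088.R2.H679.E
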