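import Vale.Agent.P088.R2.H679.E.PI0
import Vale.Agent.P088.R2.H871.E.Pb
import Vale.Agent.P088.R2.H380.INF.Sbp
import Vale.Agent.P088.R2.H380.INF.Alg
import Vale.Agent.P088.R2.H222.LevT
import Vale.Agent.P088.R2.H269.INF.Ev0
import Vale.Agent.P088.R2.H168.INF.Spec
import Vale.Agent.P088.R2.H31.EP.Thx

/-!
# P088, stage 3, EST', payments at infinity: crude bounds of the weight at high pairs

`iter_comp`: Frechet derivatives of `T ∘ g`. `EvC.thB`, `phB`, `EvC.lvB`: the derivatives of `Θ`,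
`Φ` (against `Θ' + 1`, `Φ'`) and of the level. `EvC.crude`: where `u₀ ≥ 2 l₀ + 4.55 R` and both
levels are below `l₀ + 3 R`, all slot derivatives of `W` up to order 3 are at most
`C (Φ'(u₀) + Θ'(l))` in the own slot.
-/

open Set Filter
open scoped ContDiff Topology

noncomputable section

namespace Vale.Agent.P088.R2.H679.E

open Vale.Agent.P088.LR Vale.Agent.P088.HY
open Vale.Agent.P088.R2.H31.EP Vale.Agent.P088.R2.H404.INF
open Vale.Agent.P088.R2.H961.GW Vale.Agent.P088.R2.H644 Vale.Agent.P088.R2.H960.W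
open Vale.Agent.P088.R2.H551.E Vale.Agent.P088.R2.H747.SW Vale.Agent.P088.R2.H871.E
open Vale.Agent.P088.R2.H867.EP (Zo Inf)
open Vale.Agent.P088.R2.H269.INF (Sb4 Sb5 phi_all K1 K1_nn sb5_pw)
open Vale.Agent.P088.R2.H380.INF (Bs sb_pt gm gm_le gm_nn HH_le)
open Vale.Agent.P088.R2.H222 (Lk norm_comp_right lev_Lk)
open Vale.Agent.P088.R2.H168.INF (W0 st2 RowSt HH)

variable {n : ℕ} {q : Cst} {d : Pk n} {z : VV n}

/-! ## Compositions -/

theorem iter_add_const {f : VV n → ℝ} (hf : ContDiff ℝ ∞ f) (a : ℝ) {j : ℕ} (h1 : 1 ≤ j) :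
    iteratedFDeriv ℝ j (fun z => f z + a) z = iteratedFDeriv ℝ j f z := by
  have e := fun_iteratedFDeriv_add_apply (𝕜 := ℝ) (i := j) (f := f) (g := fun _ => a) (x := z)
    (hf.contDiffAt.of_le (by exact_mod_cast le_top)) contDiffAt_const
  rw [e, iteratedFDeriv_const_of_ne (by omega)]
  simp

theorem iter_comp {T : ℝ → ℝ} {g : VV n → ℝ} (hT : ContDiff ℝ ∞ T) (hg : ContDiff ℝ ∞ g)
    {C D : ℝ} (hD1 : 1 ≤ D) (hC0 : 0 ≤ C)
    (hC : ∀ i, 1 ≤ i → i ≤ 3 → |iteratedDeriv i T (g z)| ≤ C)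
    (hD : ∀ i, 1 ≤ i → i ≤ 3 → ‖iteratedFDeriv ℝ i g z‖ ≤ D) {j : ℕ} (h1 : 1 ≤ j) (h3 : j ≤ 3) :
    ‖iteratedFDeriv ℝ j (fun z => T (g z)) z‖ ≤ 6 * (C * D ^ 3) := by
  set a := T (g z) with ha
  have hT' : ContDiff ℝ ∞ fun t => T t - a := hT.sub contDiff_const
  have e : iteratedFDeriv ℝ j (fun z => T (g z)) z =
      iteratedFDeriv ℝ j ((fun t => T t - a) ∘ g) z := by
    have e1 : (fun z => T (g z)) = fun z => ((fun t => T t - a) ∘ g) z + a := by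
      funext w; simp
    rw [e1]
    exact iter_add_const (hT'.comp hg) a h1
  rw [e]
  have h4 := norm_iteratedFDeriv_comp_le (𝕜 := ℝ) (n := j) (N := ∞) hT' hg
    (by exact_mod_cast le_top) z (C := C) (D := D) (fun i hi => by
      rw [norm_iteratedFDeriv_eq_norm_iteratedDeriv, Real.norm_eq_abs]
      rcases Nat.eq_zero_or_pos i with rfl | h0
      · rw [iteratedDeriv_zero]
        show |T (g z) - a| ≤ C
        rw [ha, sub_self, abs_zero]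
        exact hC0
      · obtain ⟨k, rfl⟩ : ∃ k, i = k + 1 := ⟨i - 1, by omega⟩
        have e2 : iteratedDeriv (k + 1) (fun t => T t - a) = iteratedDeriv (k + 1) T := by
          rw [iteratedDeriv_succ', iteratedDeriv_succ']
          congr 1
          funext t
          exact deriv_sub_const a
        rw [e2]
        exact hC _ (by omega) (by omega)) (fun i hi hij => by
      refine (hD i hi (by omega)).trans ?_
      calc D = D ^ 1 := (pow_one D).symm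
        _ ≤ D ^ i := pow_le_pow_right₀ hD1 hi)
  refine h4.trans ?_
  have f1 : ((j.factorial : ℕ) : ℝ) ≤ 6 := by
    have : j.factorial ≤ 6 := by interval_cases j <;> decide
    exact_mod_cast this
  have f2 : D ^ j ≤ D ^ 3 := pow_le_pow_right₀ hD1 h3
  calc (j.factorial : ℝ) * C * D ^ j ≤ 6 * C * D ^ 3 := by gcongr
    _ = _ := by ring

/-! ## `Θ` -/

/-- The constant of `Θ`. -/
def CT (q : Cst) : ℝ := 1 + ((thC 0 + thC 2) * (q.L₄ ^ 0 * (q.L₄ + 1) + q.L₄ ^ 2 + 1) +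
  (thC 1 + thC 3) * (q.L₄ ^ 1 * (q.L₄ + 1) + q.L₄ ^ 3 + 1))

theorem th_lin (h : PkOk q d) (hR : 1 ≤ q.R) (hL : 1 ≤ q.L₄) (h1 : q.tnL ≤ 1) (h2 : q.tny ≤ 1)
    (t : ℝ) {i : ℕ} (hi : 1 ≤ i) (hi3 : i ≤ 3) :
    |iteratedDeriv i d.Θ t| ≤ CT q * (deriv d.Θ t + 1) := by
  have hR0 : 0 < q.R := by linarith
  have c0 := thC_nonneg 0
  have c1 := thC_nonneg 1
  have c2 := thC_nonneg 2
  have c3 := thC_nonneg 3
  have hd := h.Θd0 hR0 t
  have L0 : 0 ≤ q.L₄ := by linarith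
  have key : ∀ j : ℕ, |iteratedDeriv (j + 2) d.Θ t| ≤ (thC j + thC (j + 2)) *
      (q.L₄ ^ j * (q.L₄ + 1) + q.L₄ ^ (j + 2) + 1) * (deriv d.Θ t + 1) := by
    intro j
    have a1 := h.Θll hR hL j t
    have a2 := h.Θup hR t
    have a3 := h.Θd hR0 t
    have b1 := h.th.d0 t
    have b2 := h.ts.d0 (t / √q.R)
    have hs1 : 1 ≤ √q.R := Real.one_le_sqrt.2 hR
    have hi0 : 0 ≤ (√q.R)⁻¹ := inv_nonneg.2 (by linarith)
    have hi1 : (√q.R)⁻¹ ≤ 1 := inv_le_one_of_one_le₀ hs1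
    have a4 : deriv (deriv d.Θ) t ≤ (q.L₄ + 1) * (deriv d.Θ t + 1) := by
      have e1 : q.L₄ * (deriv d.ΘL t + q.tnL) ≤ q.L₄ * (deriv d.Θ t + 1) :=
        mul_le_mul_of_nonneg_left (by linarith) L0
      have e2 : (√q.R)⁻¹ * (deriv d.ΘT (t / √q.R) + q.tny) ≤ 1 * (deriv d.Θ t + 1) := by
        have e3 : deriv d.ΘT (t / √q.R) + q.tny ≤ deriv d.Θ t + 1 := by linarith
        have e4 : (√q.R)⁻¹ * (deriv d.ΘT (t / √q.R) + q.tny) ≤ (√q.R)⁻¹ * (deriv d.Θ t + 1) :=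
          mul_le_mul_of_nonneg_left e3 hi0
        exact e4.trans (mul_le_mul_of_nonneg_right hi1 (by linarith))
      linarith
    have cj : 0 ≤ thC j + thC (j + 2) := add_nonneg (thC_nonneg _) (thC_nonneg _)
    refine a1.trans ?_
    rw [mul_assoc]
    refine mul_le_mul_of_nonneg_left ?_ cj
    have p1 : q.L₄ ^ j * deriv (deriv d.Θ) t ≤ q.L₄ ^ j * ((q.L₄ + 1) * (deriv d.Θ t + 1)) :=
      mul_le_mul_of_nonneg_left a4 (pow_nonneg L0 _)
    have p2 : q.L₄ ^ (j + 2) * q.tnL ≤ q.L₄ ^ (j + 2) * (deriv d.Θ t + 1) :=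
      mul_le_mul_of_nonneg_left (by linarith) (pow_nonneg L0 _)
    have e5 : (q.L₄ ^ j * (q.L₄ + 1) + q.L₄ ^ (j + 2) + 1) * (deriv d.Θ t + 1) =
        q.L₄ ^ j * ((q.L₄ + 1) * (deriv d.Θ t + 1)) + q.L₄ ^ (j + 2) * (deriv d.Θ t + 1) +
          (deriv d.Θ t + 1) := by ring
    rw [e5]
    linarith
  have t1 : 0 ≤ deriv d.Θ t + 1 := by linarith
  have k0 : 0 ≤ (thC 0 + thC 2) * (q.L₄ ^ 0 * (q.L₄ + 1) + q.L₄ ^ 2 + 1) := by positivity
  have k1 : 0 ≤ (thC 1 + thC 3) * (q.L₄ ^ 1 * (q.L₄ + 1) + q.L₄ ^ 3 + 1) := by positivity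
  unfold CT
  interval_cases i
  · rw [iteratedDeriv_one, abs_of_nonneg hd]
    nlinarith
  · refine (key 0).trans (mul_le_mul_of_nonneg_right ?_ t1)
    simp only [zero_add]
    linarith
  · refine (key 1).trans (mul_le_mul_of_nonneg_right ?_ t1)
    norm_num
    norm_num at k0 k1
    linarith

theorem CT_one (hL : 0 ≤ q.L₄) : 1 ≤ CT q := by
  have c0 := thC_nonneg 0
  have c1 := thC_nonneg 1
  have c2 := thC_nonneg 2
  have c3 := thC_nonneg 3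
  unfold CT
  have k0 : 0 ≤ (thC 0 + thC 2) * (q.L₄ ^ 0 * (q.L₄ + 1) + q.L₄ ^ 2 + 1) := by positivity
  have k1 : 0 ≤ (thC 1 + thC 3) * (q.L₄ ^ 1 * (q.L₄ + 1) + q.L₄ ^ 3 + 1) := by positivity
  linarith

/-! ## `Φ` -/

theorem ph_lin (h : PkOk q d) (hM : 0 ≤ q.M₀) (u : ℝ) {i : ℕ} (hi : 1 ≤ i) (hi3 : i ≤ 3) :
    |iteratedDeriv i d.Φ u| ≤ (1 + K1 q) * deriv d.Φ u := by
  have hp : 0 ≤ deriv d.Φ u := hM.trans (h.N_ge u)
  have k := K1_nn q
  rcases Nat.eq_or_lt_of_le hi with rfl | h2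
  · rw [iteratedDeriv_one, abs_of_nonneg hp]
    nlinarith
  · obtain ⟨j, rfl⟩ : ∃ j, i = j + 1 := ⟨i - 1, by omega⟩
    have := phi_all h hM (j := j) (by omega) (by omega) u
    nlinarith

/-! ## The level -/

theorem EvC.lv (hn : 1 ≤ n) : EvC fun q => ∀ d : Pk n, PkOk q d → ∀ x : V n,
    d.l x < d.l₀ q + 5 * q.R → ∀ j, 1 ≤ j → j ≤ 3 → ‖iteratedFDeriv ℝ j d.l x‖ ≤ 2 * n := by
  have e7 : EvC fun q => 0 < q.σ → q.σ ≤ 1 / 5000 → ∀ kap Gs : ℝ,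
      Lk 3 {x : V n | H475.levG n q.σ q.R kap Gs x < H475.lam0 q.R kap Gs + 5 * q.R} (2 * n)
        (H475.levG n q.σ q.R kap Gs) := by
    refine EvC.at_R (fun q t => 0 < q.σ → q.σ ≤ 1 / 5000 → ∀ kap Gs : ℝ,
      Lk 3 {x : V n | H475.levG n q.σ t kap Gs x < H475.lam0 t kap Gs + 5 * t} (2 * n)
        (H475.levG n q.σ t kap Gs)) fun q => ?_
    by_cases hc : 0 < q.σ ∧ q.σ ≤ 1 / 5000
    · obtain ⟨R0, -, H⟩ := lev_Lk (n := n) hn hc.1 hc.2 3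
      filter_upwards [eventually_ge_atTop R0] with t ht _ _ kap Gs using H t kap Gs ht
    · exact Eventually.of_forall fun _ a b => absurd ⟨a, b⟩ hc
  refine (e7.and evInf).mono ?_
  rintro q ⟨h7, hI⟩ d h x hx j h1 h3
  have hL := h7 hI.σ0 hI.σ1 d.kap d.Gs
  rw [h.lev.lit] at hx ⊢
  exact hL.b j h1 h3 x hx

/-- The three functions of the level. -/
structure LvB (q : Cst) (d : Pk n) (z : VV n) : Prop where
  u : ∀ j, 1 ≤ j → j ≤ 3 → ‖iteratedFDeriv ℝ j d.u0 z‖ ≤ 4 * n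
  x : ∀ j, 1 ≤ j → j ≤ 3 → ‖iteratedFDeriv ℝ j (fun z : VV n => d.l z.1) z‖ ≤ 4 * n
  y : ∀ j, 1 ≤ j → j ≤ 3 → ‖iteratedFDeriv ℝ j (fun z : VV n => d.l z.2) z‖ ≤ 4 * n

theorem EvC.lvB (hn : 1 ≤ n) : EvC fun q => ∀ d : Pk n, PkOk q d → ∀ z : VV n,
    d.l z.1 < d.l₀ q + 5 * q.R → d.l z.2 < d.l₀ q + 5 * q.R → LvB q d z := by
  refine (EvC.lv hn).mono fun q hq d h z h1 h2 => ?_
  have hl := h.l_sm
  have a : ∀ j, 1 ≤ j → j ≤ 3 → ‖iteratedFDeriv ℝ j (fun z : VV n => d.l z.1) z‖ ≤ 2 * n :=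
    fun j b1 b3 => (norm_comp_right (ContinuousLinearMap.fst ℝ (V n) (V n))
      (ContinuousLinearMap.norm_fst_le _ _ _) isOpen_univ hl.contDiffOn (mem_univ _) j).trans
      (hq d h _ h1 j b1 b3)
  have b : ∀ j, 1 ≤ j → j ≤ 3 → ‖iteratedFDeriv ℝ j (fun z : VV n => d.l z.2) z‖ ≤ 2 * n :=
    fun j b1 b3 => (norm_comp_right (ContinuousLinearMap.snd ℝ (V n) (V n))
      (ContinuousLinearMap.norm_snd_le _ _ _) isOpen_univ hl.contDiffOn (mem_univ _) j).trans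
      (hq d h _ h2 j b1 b3)
  have hn0 : (0 : ℝ) ≤ n := Nat.cast_nonneg n
  refine ⟨fun j b1 b3 => ?_, fun j b1 b3 => (a j b1 b3).trans (by linarith),
    fun j b1 b3 => (b j b1 b3).trans (by linarith)⟩
  have e1 : (j : WithTop ℕ∞) ≤ ∞ := by exact_mod_cast le_top
  have e2 : iteratedFDeriv ℝ j d.u0 z = iteratedFDeriv ℝ j (fun z : VV n => d.l z.1) z +
      iteratedFDeriv ℝ j (fun z : VV n => d.l z.2) z :=
    fun_iteratedFDeriv_add_apply ((hl.comp contDiff_fst).contDiffAt.of_le e1)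
      ((hl.comp contDiff_snd).contDiffAt.of_le e1)
  rw [e2]
  refine (norm_add_le _ _).trans ?_
  linarith [a j b1 b3, b j b1 b3]

end Vale.Agent.P088.R2.H679.E
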