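import Vale.Agent.P088.R2.H679.E.Cr

/-!
# P088, stage 3, EST', payments at infinity: the weight at high pairs

`EvC.big`: `Φ'` is larger than every constant times `R²` and than `e^(8 R / σ)` from
`2 l₀ + 4.55 R` on. `EvC.crude`: all slot derivatives of `W` up to order 3.
-/

open Set Filter
open scoped ContDiff Topology

noncomputable section

namespace Vale.Agent.P088.R2.H679.E

open Vale.Agent.P088.LR Vale.Agent.P088.HY
open Vale.Agent.P088.R2.H31.EP Vale.Agent.P088.R2.H404.INF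
open Vale.Agent.P088.R2.H961.GW Vale.Agent.P088.R2.H644 Vale.Agent.P088.R2.H960.W
open Vale.Agent.P088.R2.H551.E Vale.Agent.P088.R2.H747.SW Vale.Agent.P088.R2.H871.E
open Vale.Agent.P088.R2.H867.EP (Zo Inf)
open Vale.Agent.P088.R2.H269.INF (Sb4 Sb5 phi_all K1 K1_nn sb5_pw)
open Vale.Agent.P088.R2.H380.INF (Bs sb_pt gm gm_le gm_nn HH_le okx1 oky1 cm1)
open Vale.Agent.P088.R2.H168.INF (W0 st2 RowSt HH)

variable {n : ℕ} {q : Cst} {d : Pk n} {z : VV n}

/-! ## The slope is very large -/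

theorem EvC.big (n : ℕ) (A : Cst → ℝ) (hA : ∀ q : Cst, A q.b_R = A q) :
    EvC fun q => ∀ d : Pk n, PkOk q d → ∀ u : ℝ, 2 * d.l₀ q + 91 / 20 * q.R ≤ u →
      A q * q.R ^ 2 ≤ deriv d.Φ u ∧ Real.exp (8 * (q.R / q.σ)) ≤ deriv d.Φ u := by
  have h1 : EvC fun q => 32 ≤ q.C₃ := EvC.at_C₃ (fun _ t => 32 ≤ t) fun _ =>
    eventually_ge_atTop _
  refine ((((EvC.top n).and h1).and (evInf.and (EvC.R_ge (fun _ => 50) fun _ => rfl))).and
    ((EvC.R_ge A hA).and EvC.pos)).mono ?_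
  rintro q ⟨⟨⟨ht, hC⟩, hI, hR⟩, hA, -, -, hM, -⟩ d h u hu
  have hR0 := hI.R0
  have h0 := hI.σ0
  have h3 := (ht d h (2 * d.l₀ q + 91 / 20 * q.R) (by linarith) (by linarith)).2
  have hmono : deriv d.Φ (2 * d.l₀ q + 91 / 20 * q.R) ≤ deriv d.Φ u := by
    have : Monotone (deriv d.Φ) := monotone_of_deriv_nonneg
      (h.Φ's.differentiable (by simp)) fun u => (h.top.k0 u).le
    exact this hu
  have hp := h.N_pos hM (2 * d.l₀ q + 91 / 20 * q.R)
  have hL : 8 * (q.R / q.σ) ≤ q.L * (q.R / 20 - 5 / 4) := by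
    have e : q.L * (q.R / 20 - 5 / 4) = (q.C₃ * (q.R / 2 - 25 / 2)) / q.σ := by
      unfold Cst.L
      field_simp
      ring
    have e2 : 8 * (q.R / q.σ) = (8 * q.R) / q.σ := by ring
    rw [e, e2]
    refine div_le_div_of_nonneg_right ?_ h0.le
    nlinarith
  have hX : 0 ≤ 8 * (q.R / q.σ) := by positivity
  rw [Real.le_log_iff_exp_le hp] at h3
  constructor
  · refine le_trans ?_ (h3.trans hmono)
    have a1 : q.R ≤ Real.exp q.R := by
      have := Real.add_one_le_exp q.R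
      linarith
    have a2 : q.R ^ 3 ≤ Real.exp q.R ^ 3 := pow_le_pow_left₀ hR0.le a1 3
    have a3 : Real.exp q.R ^ 3 = Real.exp (3 * q.R) := by
      rw [← Real.exp_nat_mul]
      norm_num
    have a4 : A q * q.R ^ 2 ≤ q.R ^ 3 := by
      have := mul_le_mul_of_nonneg_right hA (sq_nonneg q.R)
      calc _ ≤ _ := this
        _ = _ := by ring
    refine a4.trans (a2.trans ?_)
    rw [a3]
    exact Real.exp_le_exp.2 (by linarith)
  · refine le_trans ?_ (h3.trans hmono)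
    exact Real.exp_le_exp.2 (by linarith)

/-! ## The tensors -/

theorem iter_sub_const {f : V n → ℝ} (hf : ContDiff ℝ ∞ f) (a : ℝ) {j : ℕ} (h1 : 1 ≤ j) (x : V n) :
    iteratedFDeriv ℝ j (fun z => f z - a) x = iteratedFDeriv ℝ j f x := by
  have e := fun_iteratedFDeriv_sub_apply (𝕜 := ℝ) (i := j) (f := f) (g := fun _ => a) (x := x)
    (hf.contDiffAt.of_le (by exact_mod_cast le_top)) contDiffAt_const
  rw [e, iteratedFDeriv_const_of_ne (by omega)]
  simp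

theorem tens_bd {s : MF n} {ε R : ℝ} (hR : 0 < R) (he : ε ≤ 1)
    (sm : ∀ i j, ContDiff ℝ ∞ fun x => s x i j)
    (cl : ∀ i j, ∀ m ≤ 12, ∀ x, ‖iteratedFDeriv ℝ m (fun x => s x i j -
      (1 : Matrix (Fin n) (Fin n) ℝ) i j) x‖ ≤ ε * R⁻¹ ^ m) (i j : Fin n) {m : ℕ} (hm : m ≤ 3)
    (x : V n) : ‖iteratedFDeriv ℝ m (fun x => s x i j) x‖ ≤ 2 * R⁻¹ ^ m := by
  have h1 := cl i j m (by omega) x
  have hi : 0 < R⁻¹ := inv_pos.2 hR
  rcases Nat.eq_zero_or_pos m with rfl | h0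
  · rw [norm_iteratedFDeriv_zero, Real.norm_eq_abs] at h1 ⊢
    have h2 : |(1 : Matrix (Fin n) (Fin n) ℝ) i j| ≤ 1 := by
      rw [Matrix.one_apply]
      split_ifs <;> simp
    have h3 := abs_add_le (s x i j - (1 : Matrix (Fin n) (Fin n) ℝ) i j)
      ((1 : Matrix (Fin n) (Fin n) ℝ) i j)
    rw [sub_add_cancel] at h3
    rw [pow_zero, mul_one] at h1 ⊢
    linarith
  · rw [iter_sub_const (sm i j) _ h0 x] at h1
    refine h1.trans (mul_le_mul_of_nonneg_right (by linarith) (pow_nonneg hi.le _))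

/-- helper380's hypotheses on the package. -/
theorem EvC.bs (n : ℕ) : EvC fun q => ∀ d : Pk n, PkOk q d → ∀ f : VV n → ℝ, ContDiff ℝ ∞ f →
    Bs q.R d.s₁ d.s₂ f := by
  have h1 : EvC fun q => q.ε ≤ 1 := EvC.at_ε (fun _ t => t ≤ 1) fun _ => sml_le one_pos
  refine (h1.and evInf).mono ?_
  rintro q ⟨he, hI⟩ d h f hf
  exact
    { R1 := hI.R1
      c1 := h.rg.sm₁
      c2 := h.rg.sm₂
      y1 := fun x i j => (h.rg.sy₁ x).apply j i
      y2 := fun x i j => (h.rg.sy₂ x).apply j i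
      b1 := fun i j m hm x => tens_bd hI.R0 he h.rg.sm₁ h.rg.cl₁ i j hm x
      b2 := fun i j m hm x => tens_bd hI.R0 he h.rg.sm₂ h.rg.cl₂ i j hm x
      sf := hf }

/-! ## The crude bounds -/

/-- The slot derivatives of `W` up to order 3, in the own slots. -/
structure CrW (q : Cst) (d : Pk n) (C : ℝ) (z : VV n) : Prop where
  x1 : ∀ i, |d.sx.D i (d.W q) z| ≤ C * nx q d z
  x2 : ∀ i j, |d.sx.D i (d.sx.D j (d.W q)) z| ≤ C * nx q d z
  x3 : ∀ i, |d.sx.D i (d.sx.Λ (d.W q)) z| ≤ C * nx q d z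
  y1 : ∀ i, |d.sy.D i (d.W q) z| ≤ C * ny q d z
  y2 : ∀ i j, |d.sy.D i (d.sy.D j (d.W q)) z| ≤ C * ny q d z
  y3 : ∀ i, |d.sy.D i (d.sy.Λ (d.W q)) z| ≤ C * ny q d z

/-- The constant. -/
def CU (n : ℕ) (q : Cst) : ℝ :=
  3 * (sb_pt n).choose * (6 * ((1 + K1 q) * (4 * n) ^ 3) + 6 * (CT q * (4 * n) ^ 3) + 1)

theorem CU_R (n : ℕ) (q : Cst) : CU n q.b_R = CU n q := rfl

/-- **The crude bounds at high pairs.** -/
theorem EvC.crude (hn : 1 ≤ n) (hSt : RowSt n) : EvC fun q => ∀ d : Pk n, PkOk q d →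
    ∀ z : VV n, In3 q d z → 2 * d.l₀ q + 91 / 20 * q.R ≤ d.u0 z → CrW q d (CU n q) z := by
  have hT : EvC fun q => q.tnL ≤ 1 ∧ q.tny ≤ 1 := by
    have h1 : EvC fun q => 0 < q.σ → 0 < q.C₄ →
        Real.exp (q.C₄ * q.R / q.σ) * Real.exp (-(20 * q.C₄ / q.σ * (3 / 10 * q.R / 2 - 1))) ≤ 1 ∧
        q.R ^ 4 * Real.exp (1 - 4 / 100 * √q.R) ≤ 1 := by
      refine EvC.at_R (fun q t => 0 < q.σ → 0 < q.C₄ →
        Real.exp (q.C₄ * t / q.σ) * Real.exp (-(20 * q.C₄ / q.σ * (3 / 10 * t / 2 - 1))) ≤ 1 ∧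
        t ^ 4 * Real.exp (1 - 4 / 100 * √t) ≤ 1) fun q => ?_
      have l1 : Tendsto (fun s : ℝ => s ^ 8 * Real.exp (-s)) atTop (𝓝 0) :=
        Real.tendsto_pow_mul_exp_neg_atTop_nhds_zero 8
      have l2 : Tendsto (fun t : ℝ => 4 / 100 * √t) atTop atTop :=
        Real.tendsto_sqrt_atTop.const_mul_atTop (by norm_num)
      have l3 := (l1.comp l2).eventually (gt_mem_nhds (show (0 : ℝ) <
        (4 / 100) ^ 8 * Real.exp (-1) by positivity))
      filter_upwards [eventually_ge_atTop 10, l3] with t ht h3 hσ hC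
      constructor
      · rw [← Real.exp_add, Real.exp_le_one_iff]
        have e : q.C₄ * t / q.σ + -(20 * q.C₄ / q.σ * (3 / 10 * t / 2 - 1)) =
            q.C₄ / q.σ * (20 - 2 * t) := by
          field_simp
          ring
        rw [e]
        exact mul_nonpos_of_nonneg_of_nonpos (by positivity) (by linarith)
      · have ht0 : 0 ≤ t := by linarith
        simp only [Function.comp] at h3
        have e1 : (4 / 100 * √t) ^ 8 = (4 / 100) ^ 8 * t ^ 4 := by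
          rw [mul_pow]
          congr 1
          calc √t ^ 8 = (√t ^ 2) ^ 4 := by ring
            _ = t ^ 4 := by rw [Real.sq_sqrt ht0]
        rw [e1, mul_assoc] at h3
        have h4 := lt_of_mul_lt_mul_left h3 (by positivity)
        have e2 : Real.exp (1 - 4 / 100 * √t) = Real.exp 1 * Real.exp (-(4 / 100 * √t)) := by
          rw [← Real.exp_add]
          congr 1
        have e3 : Real.exp 1 * Real.exp (-1) = 1 := by rw [← Real.exp_add]; simp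
        have h5 := mul_le_mul_of_nonneg_left h4.le (Real.exp_pos 1).le
        rw [e3] at h5
        rw [e2]
        calc _ = Real.exp 1 * (t ^ 4 * Real.exp (-(4 / 100 * √t))) := by ring
          _ ≤ 1 := h5
    have h2 : EvC fun q => 0 < q.C₄ := EvC.at_C₄ (fun _ t => 0 < t) fun _ => eventually_gt_atTop _
    refine ((h1.and h2).and evInf).mono ?_
    rintro q ⟨⟨h1, h2⟩, hI⟩
    exact h1 hI.σ0 h2
  have hC4 : EvC fun q => 1 ≤ q.C₄ := EvC.at_C₄ (fun _ t => 1 ≤ t) fun _ => eventually_ge_atTop _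
  refine ((((EvC.lvB hn).and (EvC.bs n)).and (hT.and hC4)).and (((EvC.u_ev n).and
    (EvC.big n (fun _ => 1) fun _ => rfl)).and ((evInf.and (EvC.litSm n)).and
    (hSt.and EvC.pos)))).mono ?_
  rintro q ⟨⟨⟨hlv, hbs⟩, ⟨hT1, hT2⟩, hC4⟩, ⟨hu, hbig⟩, ⟨hI, hsm⟩, hSt, -, -, hM, -⟩ d h z hz hu0
  have hR0 := hI.R0
  have hR1 := hI.R1
  have h0 := hI.σ0
  have hn1 : (1 : ℝ) ≤ n := by exact_mod_cast hn
  have hL4 : 1 ≤ q.L₄ := by
    unfold Cst.L₄
    rw [le_div_iff₀ h0]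
    have := hI.σ1
    linarith
  have lb := hlv d h z (by linarith [hz.x]) (by linarith [hz.y])
  have hb := hbs d h
  obtain ⟨B1, B2⟩ := hbig d h (d.u0 z) hu0
  have hN1 : 1 ≤ deriv d.Φ (d.u0 z) := by nlinarith
  have sm := hsm d h
  have t1 := h.Θd0 hR0 (d.l z.1)
  have t2 := h.Θd0 hR0 (d.l z.2)
  -- the functions
  have sW0 : ContDiff ℝ ∞ (W0 q d) := WW_smooth h.ok h.lev.sm sm.g
  have sΦu : ContDiff ℝ ∞ fun z => d.Φ (d.u q z) := h.Φs.comp sm.u
  have est : st2 q d = fun z => W0 q d z - d.Φ (d.u q z) := by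
    funext w
    show st (d.F q) (d.u q w) (d.r2 w) = d.Φ (d.u q w) + 1 * st (d.F q) (d.u q w) (d.r2 w) -
      d.Φ (d.u q w)
    ring
  have sst : ContDiff ℝ ∞ (st2 q d) := by
    rw [est]
    exact sW0.sub sΦu
  have sΦ0 : ContDiff ℝ ∞ fun z => d.Φ (d.u0 z) := h.Φs.comp sm.u0
  have sp : ContDiff ℝ ∞ fun z : VV n => d.Θ (d.l z.1) := h.Θs.comp (h.l_sm.comp contDiff_fst)
  have sq : ContDiff ℝ ∞ fun z : VV n => d.Θ (d.l z.2) := h.Θs.comp (h.l_sm.comp contDiff_snd)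
  set f : VV n → ℝ := fun z => d.Φ (d.u0 z) + st2 q d z with hf
  have sf : ContDiff ℝ ∞ f := sΦ0.add sst
  -- Frechet bounds
  have bf : ∀ j, 1 ≤ j → j ≤ 3 → ‖iteratedFDeriv ℝ j f z‖ ≤
      (6 * ((1 + K1 q) * (4 * n) ^ 3) + 1) * deriv d.Φ (d.u0 z) := by
    intro j j1 j3
    have e1 : (j : WithTop ℕ∞) ≤ ∞ := by exact_mod_cast le_top
    have e2 : iteratedFDeriv ℝ j f z = iteratedFDeriv ℝ j (fun z => d.Φ (d.u0 z)) z +
        iteratedFDeriv ℝ j (st2 q d) z :=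
      fun_iteratedFDeriv_add_apply (sΦ0.contDiffAt.of_le e1) (sst.contDiffAt.of_le e1)
    rw [e2]
    refine (norm_add_le _ _).trans ?_
    have k0 := K1_nn q
    have g1 := iter_comp (z := z) h.Φs sm.u0 (C := (1 + K1 q) * deriv d.Φ (d.u0 z)) (D := 4 * n)
      (by linarith) (by positivity) (fun i i1 i3 => ph_lin h (by linarith) _ i1 i3) lb.u j1 j3
    have g2 := hSt d h z (by linarith [hz.x]) (by linarith [hz.y]) j j1 (by omega)
    calc _ ≤ 6 * ((1 + K1 q) * deriv d.Φ (d.u0 z) * (4 * n) ^ 3) + deriv d.Φ (d.u0 z) :=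
          add_le_add g1 (g2.trans B2)
      _ = _ := by ring
  have bt : ∀ {g : VV n → ℝ} {t : ℝ}, ContDiff ℝ ∞ g → g z = t → (∀ j, 1 ≤ j → j ≤ 3 →
      ‖iteratedFDeriv ℝ j g z‖ ≤ 4 * n) → ∀ j, 1 ≤ j → j ≤ 3 →
      ‖iteratedFDeriv ℝ j (fun z => f z + d.Θ (g z)) z‖ ≤
      (6 * ((1 + K1 q) * (4 * n) ^ 3) + 6 * (CT q * (4 * n) ^ 3) + 1) *
        (deriv d.Φ (d.u0 z) + deriv d.Θ t) := by
    intro g t sg hg bg j j1 j3
    have e1 : (j : WithTop ℕ∞) ≤ ∞ := by exact_mod_cast le_top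
    have sΘ : ContDiff ℝ ∞ fun z => d.Θ (g z) := h.Θs.comp sg
    have e2 : iteratedFDeriv ℝ j (fun z => f z + d.Θ (g z)) z = iteratedFDeriv ℝ j f z +
        iteratedFDeriv ℝ j (fun z => d.Θ (g z)) z :=
      fun_iteratedFDeriv_add_apply (sf.contDiffAt.of_le e1) (sΘ.contDiffAt.of_le e1)
    rw [e2]
    refine (norm_add_le _ _).trans ?_
    have k0 := K1_nn q
    have c1 := CT_one (q := q) (by linarith)
    have td := h.Θd0 hR0 t
    have g1 := iter_comp (z := z) h.Θs sg (C := CT q * (deriv d.Θ t + 1)) (D := 4 * n)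
      (by linarith) (by positivity) (fun i i1 i3 => by
        rw [hg]
        exact th_lin h hR1 hL4 hT1 hT2 _ i1 i3) bg j1 j3
    have g2 := bf j j1 j3
    have p1 : (6 * ((1 + K1 q) * (4 * n) ^ 3) + 1) * deriv d.Φ (d.u0 z) ≤
        (6 * ((1 + K1 q) * (4 * n) ^ 3) + 1) * (deriv d.Φ (d.u0 z) + deriv d.Θ t) :=
      mul_le_mul_of_nonneg_left (by linarith) (by positivity)
    have p2 : 6 * (CT q * (deriv d.Θ t + 1) * (4 * n) ^ 3) ≤
        6 * (CT q * (4 * n) ^ 3) * (deriv d.Φ (d.u0 z) + deriv d.Θ t) := by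
      calc _ = 6 * (CT q * (4 * n) ^ 3) * (deriv d.Θ t + 1) := by ring
        _ ≤ _ := mul_le_mul_of_nonneg_left (by linarith) (by positivity)
    calc _ ≤ _ := add_le_add (g2.trans p1) (g1.trans p2)
      _ = _ := by ring
  have bx := bt (g := fun z : VV n => d.l z.1) (h.l_sm.comp contDiff_fst) rfl lb.x
  have bY := bt (g := fun z : VV n => d.l z.2) (h.l_sm.comp contDiff_snd) rfl lb.y
  -- the slots
  obtain ⟨C0, hC⟩ := (sb_pt n).choose_spec
  have c1 := h.rg.sm₁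
  have c2 := h.rg.sm₂
  have y1 : ∀ x i j, d.s₁ x i j = d.s₁ x j i := fun x i j => (h.rg.sy₁ x).apply j i
  have y2 : ∀ x i j, d.s₂ x i j = d.s₂ x j i := fun x i j => (h.rg.sy₂ x).apply j i
  have ok := okx1 c1 c2 y1 y2
  have ot := oky1 c1 c2 y1 y2
  have cm := cm1 c1 c2 y1 y2
  have b0 := (hC q.R d.s₁ d.s₂ f (hb f sf) z).1
  have b1 := (hC q.R d.s₁ d.s₂ _ (hb _ (sf.add sp)) z).1
  have b2 := (hC q.R d.s₁ d.s₂ _ (hb _ (sf.add sq)) z).1
  have S := sb5_pw ok ot cm sf.contDiffOn sp.contDiffOn sq.contDiffOn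
    (fun w _ k => Dy_fst ((h.Θs.comp h.lev.sm).differentiable (by simp) w.1) k)
    (fun w _ k => Dx_snd ((h.Θs.comp h.lev.sm).differentiable (by simp) w.2) k)
    (mem_univ z) b0 b1 b2
  -- `W` near `z`
  have eW : ∀ᶠ w in 𝓝 z, d.W q w = f w + d.Θ (d.l w.1) + d.Θ (d.l w.2) := by
    filter_upwards [W_ret h hz.x hz.y, hu d h z hz.i hz.x hz.y] with w a1 a2
    rw [a1.2.2, hf, est]
    show W0 q d w + (d.Θ (d.l w.1) + d.Θ (d.l w.2)) =
      d.Φ (d.u0 w) + (W0 q d w - d.Φ (d.u q w)) + d.Θ (d.l w.1) + d.Θ (d.l w.2)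
    rw [a2]
    ring
  obtain ⟨U, hU, oU, zU⟩ := mem_nhds_iff.1 eW
  have S' := S.congr oU (fun w hw => hU hw) zU
  have hx : nx q d z = deriv d.Φ (d.u0 z) + deriv d.Θ (d.l z.1) := rfl
  have hy : ny q d z = deriv d.Φ (d.u0 z) + deriv d.Θ (d.l z.2) := rfl
  set K : ℝ := 6 * ((1 + K1 q) * (4 * n) ^ 3) + 6 * (CT q * (4 * n) ^ 3) + 1 with hK
  have k0 := K1_nn q
  have cT := CT_one (q := q) (by linarith)
  have hK0 : 0 ≤ K := by positivity
  have nx0 : 0 ≤ nx q d z := by rw [hx]; linarith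
  have ny0 : 0 ≤ ny q d z := by rw [hy]; linarith
  have gx : ∀ j ≤ 2, gm q.R (fun z => f z + d.Θ (d.l z.1)) j z ≤ (j + 1) * (K * nx q d z) :=
    fun j hj => gm_le (k := 2) hR1 (by positivity) (fun i i1 i3 => bx i i1 (by omega)) hj
  have gy : ∀ j ≤ 2, gm q.R (fun z => f z + d.Θ (d.l z.2)) j z ≤ (j + 1) * (K * ny q d z) :=
    fun j hj => gm_le (k := 2) hR1 (by positivity) (fun i i1 i3 => bY i i1 (by omega)) hj
  have eC : CU n q = 3 * (sb_pt n).choose * K := rfl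
  have fin : ∀ {a G m : ℝ} {j : ℕ}, 0 ≤ m → j ≤ 2 → G ≤ (j + 1) * (K * m) →
      a ≤ (sb_pt n).choose * G → a ≤ CU n q * m := by
    intro a G m j hm hj hG ha
    refine ha.trans ((mul_le_mul_of_nonneg_left hG C0).trans ?_)
    have hj' : ((j : ℝ) + 1) ≤ 3 := by
      have : (j : ℝ) ≤ 2 := by exact_mod_cast hj
      linarith
    rw [eC]
    have : 0 ≤ (sb_pt n).choose * (K * m) := by positivity
    nlinarith
  exact
    { x1 := fun i => fin nx0 (by norm_num) (gx 0 (by norm_num)) (S'.d1 i)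
      x2 := fun i j => fin nx0 (by norm_num) (gx 1 (by norm_num)) (S'.d2 i j)
      x3 := fun i => fin nx0 le_rfl (gx 2 le_rfl) (S'.l1 i)
      y1 := fun i => fin ny0 (by norm_num) (gy 0 (by norm_num)) (S'.d1' i)
      y2 := fun i j => fin ny0 (by norm_num) (gy 1 (by norm_num)) (S'.d2' i j)
      y3 := fun i => fin ny0 le_rfl (gy 2 le_rfl) (S'.l4 i) }

end Vale.Agent.P088.R2.H679.E
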