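import Vale.Agent.P088.R2.H871.E.PayI
import Vale.Agent.P088.R2.H871.E.Zb
import Vale.Agent.P088.R2.H303.F.Uni
import Vale.Agent.P088.R2.H380.INF.Let

/-!
# P088, stage 3, EST', payments at infinity: the cut-offs of the leaves at infinity, the costs

`El3`: ellipticity of a slot at a point; `EvC.el3`. `dch_inf`: the cut-offs of `iH`, `iF`, `iS`
have slot derivatives `≤ cX q / R`. `CB.add`, `cS_CB`, `cT_CB`: the costs of `zone_S`, `zone_T`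
from bounds of the derivatives.
-/

open Set Filter
open scoped ContDiff Topology

noncomputable section

namespace Vale.Agent.P088.R2.H679.E

open Vale.Agent.P088.LR Vale.Agent.P088.HY
open Vale.Agent.P088.R2.H31.EP Vale.Agent.P088.R2.H404.INF
open Vale.Agent.P088.R2.H961.GW Vale.Agent.P088.R2.H644 Vale.Agent.P088.R2.H960.W
open Vale.Agent.P088.R2.H551.E Vale.Agent.P088.R2.H747.SW Vale.Agent.P088.R2.H871.E
open Vale.Agent.P088.R2.H867.EP (Zo Inf)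

/-! ## Slots -/

section slot

variable {E ι : Type*} [NormedAddCommGroup E] [NormedSpace ℝ E] [Fintype ι]

/-- Ellipticity of a slot at a point, with the bilinear form. -/
structure El3 (σ : Sl E ι) (z : E) : Prop extends El2 σ z where
  bi : ∀ A B : ι → ℝ, (∑ i, ∑ j, σ.s i j z * A i * B j) ^ 2 ≤ 4 * ((∑ i, A i ^ 2) * ∑ i, B i ^ 2)

variable {σ τ : Sl E ι} {z : E} {W χ lam mu f g : E → ℝ}

theorem El3.G_le (h : El3 σ z) {A B : ℝ} (hA : 0 ≤ A) (hB : 0 ≤ B)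
    (h1 : ∑ i, σ.D i f z ^ 2 ≤ A ^ 2) (h2 : ∑ i, σ.D i g z ^ 2 ≤ B ^ 2) :
    |σ.Γ f g z| ≤ 2 * (A * B) := by
  have h3 := h.bi (fun i => σ.D i f z) fun i => σ.D i g z
  have e : ∑ i, ∑ j, σ.s i j z * σ.D i f z * σ.D j g z = σ.Γ f g z := rfl
  rw [e] at h3
  refine abs_le_of_sq_le_sq ?_ (by positivity)
  refine h3.trans ?_
  have h4 : 0 ≤ ∑ i, σ.D i g z ^ 2 := Finset.sum_nonneg fun _ _ => sq_nonneg _
  have h5 := mul_le_mul h1 h2 h4 (sq_nonneg A)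
  calc _ ≤ 4 * (A ^ 2 * B ^ 2) := mul_le_mul_of_nonneg_left h5 (by norm_num)
    _ = _ := by ring

end slot

/-! ## The cost, general lemmas -/

section cost

variable {E ι : Type*} [NormedAddCommGroup E] [NormedSpace ℝ E] [Fintype ι]
  {σ τ : Sl E ι} {z : E} {W χ lam mu : E → ℝ} {e e' s n₁ n₂ F₁ F₂ : ℝ} {co co' : Q8 E}

theorem CB.add (h : CB e s n₁ n₂ F₁ F₂ co z) (h' : CB e' s n₁ n₂ F₁ F₂ co' z) :
    CB (e + e') s n₁ n₂ F₁ F₂ (co + co') z where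
  κ := by
    show co.κ z + co'.κ z ≤ 0
    linarith [h.κ, h'.κ]
  ζ₁ := by
    show co.ζ₁ z + co'.ζ₁ z ≤ _
    rw [add_mul]
    exact add_le_add h.ζ₁ h'.ζ₁
  ζ₂ := by
    show co.ζ₂ z + co'.ζ₂ z ≤ _
    rw [add_mul]
    exact add_le_add h.ζ₂ h'.ζ₂
  ζy := by
    show co.ζy z + co'.ζy z ≤ 0
    linarith [h.ζy, h'.ζy]
  w₁ := by
    show co.w₁ z + co'.w₁ z ≤ _
    rw [add_mul]
    exact add_le_add h.w₁ h'.w₁
  w₂ := by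
    show co.w₂ z + co'.w₂ z ≤ _
    rw [add_mul]
    exact add_le_add h.w₂ h'.w₂
  wb := by
    show co.wb z + co'.wb z ≤ 0
    linarith [h.wb, h'.wb]
  wc := by
    show co.wc z + co'.wc z ≤ 0
    linarith [h.wc, h'.wc]

/-- A cost with only the coefficients `w₁`, `w₂`. -/
theorem CB.ofw (hκ : co.κ z = 0) (h1 : co.ζ₁ z = 0) (h2 : co.ζ₂ z = 0) (hy : co.ζy z = 0)
    (hb : co.wb z = 0) (hc : co.wc z = 0)
    (w₁ : co.w₁ z ≤ e * (s * (n₁ * F₁ + s * n₁ ^ 2)))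
    (w₂ : co.w₂ z ≤ e * (s * (n₂ * F₂ + s * n₂ ^ 2)))
    (he : 0 ≤ e) (hs : 0 ≤ s) (hn1 : 0 ≤ n₁) (hn2 : 0 ≤ n₂) : CB e s n₁ n₂ F₁ F₂ co z :=
  ⟨hκ.le, by rw [h1]; positivity, by rw [h2]; positivity, hy.le, w₁, w₂, hb.le, hc.le⟩

/-- The cost of `zone_T`: `4 lam Γ(χ, χ)`. -/
theorem cT_CB {Z₁ Z₂ : ℝ} (l₁ : El2 σ z) (l₂ : El2 τ z) (hl : 0 ≤ lam z) (hm : 0 ≤ mu z)
    (hZ₁ : ∑ i, σ.D i χ z ^ 2 ≤ Z₁) (hZ₂ : ∑ i, τ.D i χ z ^ 2 ≤ Z₂)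
    (b₁ : 8 * (lam z * Z₁) ≤ e * (s * (n₁ * F₁ + s * n₁ ^ 2)))
    (b₂ : 8 * (mu z * Z₂) ≤ e * (s * (n₂ * F₂ + s * n₂ ^ 2)))
    (he : 0 ≤ e) (hs : 0 ≤ s) (h1 : 0 ≤ n₁) (h2 : 0 ≤ n₂) :
    CB e s n₁ n₂ F₁ F₂ (H168.INF.cT σ τ χ lam mu) z := by
  have half : ∀ {ρ : Sl E ι} {μ Z B : ℝ}, El2 ρ z → 0 ≤ μ →
      ∑ i, ρ.D i χ z ^ 2 ≤ Z → 8 * (μ * Z) ≤ B → 4 * μ * ρ.Γ χ χ z ≤ B := by
    intro ρ μ Z B hl hμ hZ hB
    refine le_trans ?_ hB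
    have h3 : ρ.Γ χ χ z ≤ 2 * Z := by
      have : ss ρ (fun i => ρ.D i χ z) z ≤ _ := hl.up fun i => ρ.D i χ z
      have e1 : ss ρ (fun i => ρ.D i χ z) z = ρ.Γ χ χ z := rfl
      rw [e1] at this
      linarith
    have h4 := mul_le_mul_of_nonneg_left h3 hμ
    linarith
  exact CB.ofw rfl rfl rfl rfl rfl rfl (half l₁ hl hZ₁ b₁) (half l₂ hm hZ₂ b₂) he hs h1 h2

/-- The bound of `cw`. -/
theorem cw_le {D H Y : ℝ} (l : El3 σ z) (hl : 0 ≤ lam z) (hχ : |χ z| ≤ 1) (hD : 0 ≤ D)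
    (hY : 0 ≤ Y) (h1 : ∑ i, σ.D i χ z ^ 2 ≤ D ^ 2)
    (h2 : |H168.INF.HH σ W z fun i => σ.D i χ z| ≤ H * D ^ 2)
    (h3 : ∑ i, σ.D i (σ.Λ W) z ^ 2 ≤ Y ^ 2) :
    H168.INF.cw σ W χ lam z ≤ 6 * (lam z * D ^ 2) + 32 * (H * D ^ 2) + 16 * (D * Y) := by
  have a1 : σ.Γ χ χ z ≤ 2 * D ^ 2 := by
    have : ss σ (fun i => σ.D i χ z) z ≤ _ := l.up fun i => σ.D i χ z
    have e1 : ss σ (fun i => σ.D i χ z) z = σ.Γ χ χ z := rfl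
    rw [e1] at this
    linarith
  have a2 := mul_le_mul_of_nonneg_left a1 hl
  have a3 := (le_abs_self (H168.INF.HH σ W z fun i => σ.D i χ z)).trans h2
  have a4 := l.G_le (f := χ) (g := σ.Λ W) hD hY h1 h3
  have a5 : |χ z * σ.Γ χ (σ.Λ W) z| ≤ 2 * (D * Y) := by
    rw [abs_mul]
    calc _ ≤ 1 * (2 * (D * Y)) := mul_le_mul hχ a4 (abs_nonneg _) zero_le_one
      _ = _ := one_mul _
  unfold H168.INF.cw
  linarith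

/-- The cost of `zone_S`. -/
theorem cS_CB {D H₁ H₂ Y₁ Y₂ : ℝ} (l₁ : El3 σ z) (l₂ : El3 τ z) (hl : 0 ≤ lam z) (hm : 0 ≤ mu z)
    (hχ : |χ z| ≤ 1) (hD : 0 ≤ D) (hY₁ : 0 ≤ Y₁) (hY₂ : 0 ≤ Y₂)
    (d₁ : ∑ i, σ.D i χ z ^ 2 ≤ D ^ 2) (d₂ : ∑ i, τ.D i χ z ^ 2 ≤ D ^ 2)
    (hh₁ : |H168.INF.HH σ W z fun i => σ.D i χ z| ≤ H₁ * D ^ 2)
    (hh₂ : |H168.INF.HH τ W z fun i => τ.D i χ z| ≤ H₂ * D ^ 2)
    (y₁ : ∑ i, σ.D i (σ.Λ W) z ^ 2 ≤ Y₁ ^ 2) (y₂ : ∑ i, τ.D i (τ.Λ W) z ^ 2 ≤ Y₂ ^ 2)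
    (b₁ : 6 * (lam z * D ^ 2) + 32 * (H₁ * D ^ 2) + 16 * (D * Y₁) ≤
      e * (s * (n₁ * F₁ + s * n₁ ^ 2)))
    (b₂ : 6 * (mu z * D ^ 2) + 32 * (H₂ * D ^ 2) + 16 * (D * Y₂) ≤
      e * (s * (n₂ * F₂ + s * n₂ ^ 2)))
    (he : 0 ≤ e) (hs : 0 ≤ s) (h1 : 0 ≤ n₁) (h2 : 0 ≤ n₂) :
    CB e s n₁ n₂ F₁ F₂ (H168.INF.cS σ τ W χ lam mu) z :=
  CB.ofw rfl rfl rfl rfl rfl rfl ((cw_le l₁ hl hχ hD hY₁ d₁ hh₁ y₁).trans b₁)
    ((cw_le l₂ hm hχ hD hY₂ d₂ hh₂ y₂).trans b₂) he hs h1 h2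

end cost

/-! ## The package -/

variable {n : ℕ} {q : Cst} {d : Pk n} {z : VV n} {k : Zo}

/-- Ellipticity of the slots of the package. -/
theorem EvC.el3 (n : ℕ) : EvC fun q => ∀ d : Pk n, PkOk q d → ∀ z, El3 d.sx z ∧ El3 d.sy z := by
  refine (H303.F.rowU n).mono fun q hq d h z => ?_
  have key : ∀ (ρ : Sl (VV n) (Fin n)), (∀ A : Fin n → ℝ, ∑ i, A i ^ 2 ≤ 2 * ss ρ A z) →
      (∀ A B : Fin n → ℝ, (∑ i, ∑ j, ρ.s i j z * A i * B j) ^ 2 ≤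
        2 ^ 2 * ((∑ i, A i ^ 2) * ∑ i, B i ^ 2)) → El3 ρ z := by
    intro ρ h1 h2
    refine ⟨⟨h1, fun A => ?_⟩, fun A B => (h2 A B).trans (le_of_eq (by norm_num))⟩
    have h3 : 0 ≤ ∑ i, A i ^ 2 := Finset.sum_nonneg fun _ _ => sq_nonneg _
    have h4 := h2 A A
    have e : ∑ i, ∑ j, ρ.s i j z * A i * A j = ss ρ A z := rfl
    rw [e] at h4
    refine abs_le_of_sq_le_sq' ?_ (by positivity) |>.2
    refine h4.trans (le_of_eq (by ring))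
  exact ⟨key _ (fun A => (hq d h z A A).1.1) fun A B => (hq d h z A B).2.1,
    key _ (fun A => (hq d h z A A).1.2) fun A B => (hq d h z A B).2.2⟩

/-- The bound of the cut-offs: `|D χ|² ≤ (dX / R)²`. -/
def dX (n : ℕ) (q : Cst) : ℝ := √n * (2100 * BF / q.κ₁)

theorem dX_nn (hq : InfC q) : 0 ≤ dX n q := by
  have h1 := hq.κ0
  have h2 := BF_one
  unfold dX
  positivity

theorem dX_sq (hq : InfC q) : (n : ℝ) * (7 * BF * (300 / (q.κ₁ * q.R))) ^ 2 = (dX n q / q.R) ^ 2 := by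
  have h1 := hq.κ0
  have h2 := hq.R0
  have h3 : √(n : ℝ) ^ 2 = n := Real.sq_sqrt (Nat.cast_nonneg n)
  unfold dX
  have e : (√(n : ℝ) * (2100 * BF / q.κ₁) / q.R) ^ 2 =
      √(n : ℝ) ^ 2 * (2100 * BF / q.κ₁ / q.R) ^ 2 := by ring
  rw [e, h3]
  congr 2
  field_simp
  ring

/-- **The cut-offs of the leaves at infinity.** -/
theorem d_ch (hq : InfC q) (h : PkOk q d) (sm : LitSm q d) (hk : Inf k) (z : VV n) :
    ∑ i, d.sx.D i (d.ch q k) z ^ 2 ≤ (dX n q / q.R) ^ 2 ∧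
    ∑ i, d.sy.D i (d.ch q k) z ^ 2 ≤ (dX n q / q.R) ^ 2 := by
  have h1 := Z_le (z := z) sm (inf_b hq h hk)
  rwa [dX_sq hq] at h1

theorem sum_bd {ι : Type*} [Fintype ι] {f : ι → ℝ} {B : ℝ} (h : ∀ i, |f i| ≤ B) :
    ∑ i, f i ^ 2 ≤ (√(Fintype.card ι) * B) ^ 2 := by
  have h1 : ∑ i, f i ^ 2 ≤ ∑ _i : ι, B ^ 2 := by
    refine Finset.sum_le_sum fun i _ => ?_
    rw [← sq_abs]
    exact pow_le_pow_left₀ (abs_nonneg _) (h i) 2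
  refine h1.trans (le_of_eq ?_)
  rw [Finset.sum_const, Finset.card_univ, nsmul_eq_mul, mul_pow, Real.sq_sqrt (Nat.cast_nonneg _)]

/-- `R` is larger than every function of the other constants. -/
theorem EvC.R_ge (A : Cst → ℝ) (hA : ∀ q : Cst, A q.b_R = A q) : EvC fun q => A q ≤ q.R := by
  have h : EvC fun q => A q.b_R ≤ q.R := EvC.at_R (fun q t => A q ≤ t) fun q =>
    eventually_ge_atTop _
  exact h.mono fun q hq => by rwa [hA q] at hq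

theorem ch_le1 (d : Pk n) (q : Cst) (k : Zo) (z : VV n) : |d.ch q k z| ≤ 1 := by
  have h0 : 0 ≤ d.ch q k z := H867.EP.ch_nn Fl_pair _ _ _
  have h1 : d.ch q k z ≤ 1 := H867.EP.ch_le Fl_pair _ _ _
  rwa [abs_of_nonneg h0]

end Vale.Agent.P088.R2.H679.E
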