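import Vale.Agent.P088.R2.H871.E.Pb
import Vale.Agent.P088.R2.H679.E.PI0
import Vale.Agent.P088.R2.H303.F.Lt
import Vale.Agent.P088.R2.H269.INF.Ev

/-!
# P088, stage 3, EST', payments at infinity: the leaf iF
-/

open Set Filter
open scoped ContDiff Topology

noncomputable section

namespace Vale.Agent.P088.R2.H679.E

open Vale.Agent.P088.LR Vale.Agent.P088.HY
open Vale.Agent.P088.R2.H31.EP Vale.Agent.P088.R2.H404.INF
open Vale.Agent.P088.R2.H551.E Vale.Agent.P088.R2.H747.SW Vale.Agent.P088.R2.H871.E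
open Vale.Agent.P088.R2.H867.EP (Zo Inf)
open Vale.Agent.P088.R2.H303.F (MzF cozF MU coU mX mY RowG OmP far_OmP)
open Vale.Agent.P088.R2.H269.INF (FarB ev_far nb_R)

variable {n : ℕ} {q : Cst} {d : Pk n} {z : VV n}

/-- The rates `Φ'(u₀) + Θ'(l)`. -/
def nu1 (d : Pk n) (z : VV n) : ℝ := deriv d.Φ (d.u0 z) + deriv d.Θ (d.l z.1)
def nu2 (d : Pk n) (z : VV n) : ℝ := deriv d.Φ (d.u0 z) + deriv d.Θ (d.l z.2)

/-- What is used of the leaf iF. -/
structure DF (q : Cst) (d : Pk n) (z : VV n) : Prop where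
  M : 1 ≤ q.M₀
  a1 : q.M₀ ≤ nu1 d z
  a2 : q.M₀ ≤ nu2 d z
  b1 : nu1 d z ≤ H269.INF.nx q d z
  b2 : nu2 d z ≤ H269.INF.ny q d z
  F1 : 1 / 100 * H269.INF.nx q d z ^ 2 ≤ d.sx.F (d.W q) z
  F2 : 1 / 100 * H269.INF.ny q d z ^ 2 ≤ d.sy.F (d.W q) z

theorem EvC.dF (hn : 1 ≤ n) (hG : RowG n) : EvC fun q => ∀ d : Pk n, PkOk q d → ∀ z,
    d.ch q .iF z ≠ 0 → DF q d z := by
  refine (((ev_far hn (e := fun _ => 1) (fun _ => rfl) (EvC.of fun _ => ⟨one_pos, le_rfl⟩)).and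
    evInf).and (hG.and EvC.pos)).mono ?_
  rintro q ⟨⟨hF, hI⟩, hG, hp⟩ d h z hz
  have fb := hF d h
  have fc := fb.fc
  have hM : 1 ≤ q.M₀ := fc.M1
  have ho : z ∈ OmP q d := far_OmP hI (far_supp hI h (subset_tsupport _ hz)) h
  obtain ⟨g1, g2⟩ := hG d h z ho
  have G0 := (fc.toFC0.G0 ho.1).le
  have t1 := h.Θd0 hI.R0 (d.l z.1)
  have t2 := h.Θd0 hI.R0 (d.l z.2)
  have n0 := h.N_ge (d.u0 z)
  have eu : H464.Cu.uf d.l z = d.u0 z := rfl
  refine ⟨hM, ?_, ?_, ?_, ?_, g1, g2⟩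
  · unfold nu1; linarith
  · unfold nu2; linarith
  · unfold nu1 H269.INF.nx H269.INF.nn
    rw [eu]
    linarith
  · unfold nu2 H269.INF.ny H269.INF.nn
    rw [eu]
    linarith

/-- **The leaf iF as payer.** -/
theorem pbF (hn : 1 ≤ n) (hG : RowG n) : EvC fun q => ∀ d : Pk n, PkOk q d → ∀ z,
    d.ch q .iF z ≠ 0 → PB (1 / 600) (q.σ / q.R) (nu1 d z) (nu2 d z) (d.sx.F (d.W q) z)
      (d.sy.F (d.W q) z) (MzF q d) z := by
  refine ((EvC.dF hn hG).and evInf).mono ?_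
  rintro q ⟨hd, hI⟩ d h z hz
  have D := hd d h z hz
  have hs : 0 < q.σ / q.R := div_pos hI.σ0 hI.R0
  have hs1 : q.σ / q.R ≤ 1 / 100 := by
    rw [div_le_iff₀ hI.R0]
    linarith [hI.σ1, hI.R1]
  have m1 := D.M.trans D.a1
  have m2 := D.M.trans D.a2
  have k1 : nu1 d z ^ 2 ≤ H269.INF.nx q d z ^ 2 :=
    pow_le_pow_left₀ (by linarith) D.b1 2
  have k2 : nu2 d z ^ 2 ≤ H269.INF.ny q d z ^ 2 :=
    pow_le_pow_left₀ (by linarith) D.b2 2
  refine MU_PB (c₂ := 1 / 100) (by norm_num) hs.le (by linarith) (by linarith) (by norm_num)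
    (by norm_num) ?_ ?_ (by linarith [D.F1]) (by linarith [D.F2]) (by linarith) (by linarith)
  · show _ ≤ 1 / 100 * (q.σ / q.R) * H269.INF.nx q d z
    have := mul_le_mul_of_nonneg_left D.b1 hs.le
    linarith
  · show _ ≤ 1 / 100 * (q.σ / q.R) * H269.INF.ny q d z
    have := mul_le_mul_of_nonneg_left D.b2 hs.le
    linarith

/-- **The cost of the leaf iF.** -/
theorem cbF (hn : 1 ≤ n) (hG : RowG n) {e : Cst → ℝ} (he : NB_c' e) (h0 : ∀ q, 0 < e q) :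
    EvC fun q => ∀ d : Pk n, PkOk q d → ∀ z,
    d.ch q .iF z ≠ 0 → CB (e q) (q.σ / q.R) (nu1 d z) (nu2 d z) (d.sx.F (d.W q) z)
      (d.sy.F (d.W q) z) (cozF q d) z := by
  refine (((EvC.dF hn hG).and (evInf.and (EvC.litSm n))).and ((EvC.el3 n).and
    (EvC.R_ge (fun q => 1200 * dX n q ^ 2 / e q) fun q => by rw [nb_R he]; rfl))).mono ?_
  rintro q ⟨⟨hd, hI, hl⟩, hel, hR⟩ d h z hz
  have D := hd d h z hz
  have hR0 := hI.R0
  have hR1 := hI.R1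
  have hs : 0 < q.σ / q.R := div_pos hI.σ0 hR0
  have eq := h0 q
  obtain ⟨c1, c2⟩ := d_ch hI h (hl d h) (k := .iF) (Or.inr (Or.inl rfl)) z
  obtain ⟨l1, l2⟩ := hel d h z
  have m1 := D.M.trans D.a1
  have m2 := D.M.trans D.a2
  have key : ∀ {ν N F : ℝ}, 1 ≤ ν → ν ≤ N → 1 / 100 * N ^ 2 ≤ F →
      6 / (1 / 200) * (1 / 100 * (q.σ / q.R) * N * (dX n q / q.R) ^ 2) ≤
        e q * (q.σ / q.R * (ν * F + q.σ / q.R * ν ^ 2)) := by
    intro ν N F h1 h2 h3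
    have hN : 1 ≤ N := h1.trans h2
    have h4 : 1200 * dX n q ^ 2 ≤ e q * q.R := by
      rw [div_le_iff₀ eq] at hR
      linarith
    have h5 : 1200 * dX n q ^ 2 ≤ e q * q.R ^ 2 := by nlinarith
    have h6 : 1200 * (dX n q / q.R) ^ 2 ≤ e q := by
      rw [div_pow, ← mul_div_assoc, div_le_iff₀ (by positivity)]
      exact h5
    have h7 : N ≤ 100 * (ν * F) := by
      have : N ≤ N ^ 2 := by nlinarith
      have h8 : F ≤ ν * F := by nlinarith [sq_nonneg N]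
      linarith
    have h8 : 0 ≤ q.σ / q.R * ν ^ 2 := by positivity
    have e1 : 6 / (1 / 200) * (1 / 100 * (q.σ / q.R) * N * (dX n q / q.R) ^ 2) =
        q.σ / q.R * (1 / 100 * N) * (1200 * (dX n q / q.R) ^ 2) := by ring
    rw [e1]
    calc _ ≤ q.σ / q.R * (1 / 100 * N) * e q :=
          mul_le_mul_of_nonneg_left h6 (by positivity)
      _ ≤ q.σ / q.R * (ν * F + q.σ / q.R * ν ^ 2) * e q := by
          refine mul_le_mul_of_nonneg_right (mul_le_mul_of_nonneg_left ?_ hs.le) eq.le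
          linarith
      _ = _ := by ring
  refine coU_CB (Z₁ := (dX n q / q.R) ^ 2) (Z₂ := (dX n q / q.R) ^ 2) l1.toEl2 l2.toEl2
    (by norm_num) ?_ ?_ c1 c2 ?_ ?_ eq.le hs.le (by linarith) (by linarith)
  · show 0 ≤ 1 / 100 * (q.σ / q.R) * H269.INF.nx q d z
    have := m1.trans D.b1
    positivity
  · show 0 ≤ 1 / 100 * (q.σ / q.R) * H269.INF.ny q d z
    have := m2.trans D.b2
    positivity
  · exact key m1 D.b1 D.F1
  · exact key m2 D.b2 D.F2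

/-! ## The interface -/

open Vale.Agent.P088.R2.H455.E (Lc SmE)

/-- **The leaf iF pays.** -/
theorem pbI_iF (hn : 1 ≤ n) (hG : RowG n) {L : Lc n}
    (hM : ∀ (q : Cst) (d : Pk n), L.FM .iF q d = MzF q d) : PbI L .iF := by
  refine ⟨fun _ => 1 / 600, ⟨fun _ => rfl, fun _ => by norm_num⟩, ?_⟩
  refine (pbF hn hG).mono fun q hq d h z _ hz => ?_
  show PB _ _ _ _ _ _ (L.FM .iF q d) z
  rw [hM]
  exact hq d h z hz

/-- **The cost of the leaf iF is small.** -/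
theorem cbI_iF (hn : 1 ≤ n) (hG : RowG n) {L : Lc n}
    (hC : ∀ (q : Cst) (d : Pk n), L.FC .iF q d = cozF q d) : CbI L .iF := by
  intro ε hε
  refine ⟨fun _ => 1, ⟨fun _ => rfl, fun _ => one_pos⟩, fun e _ _ => ?_⟩
  refine (cbF hn hG hε.1 hε.2).mono fun q hq d h z _ hz => ?_
  show CB _ _ _ _ _ _ (L.FC .iF q d) z
  rw [hC]
  exact hq d h z hz

end Vale.Agent.P088.R2.H679.E
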